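import Crest.Agent.N336.A.Amp0
import Crest.Agent.N336.Q.EntMain

/-!
# Row 336, amplification, part (D): from the trace distance to the exchange unitary
-/

set_option autoImplicit false
set_option linter.unusedSectionVars false

open Matrix Finset
open scoped ComplexOrder MatrixOrder Matrix.Norms.L2Operator InnerProductSpace

namespace Crest.Agent.N336.A.Amp

open Crest.Agent.N336.Q Crest.MathPhysics.LatticeSpin

lemma norm_le_of_re_inner {n : Type} [Fintype n] [DecidableEq n] {M : Matrix n n ℂ}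
    (hM : M.IsHermitian) (h : ∀ v : Q.Vec n, ‖v‖ = 1 → |(⟪v, ap M v⟫_ℂ).re| ≤ 1) : ‖M‖ ≤ 1 := by
  rw [← fc_id hM]
  refine norm_fc_le zero_le_one fun i => ?_
  rw [Complex.norm_real, Real.norm_eq_abs, ev_eq_re_inner hM]
  exact h _ (norm_evec _ _)

lemma abs_re_trace_le {n : Type} [Fintype n] [DecidableEq n] {O ρ : Matrix n n ℂ}
    (hn : ‖O‖ ≤ 1) (hρ : Dens ρ) : |(trace (O * ρ)).re| ≤ 1 := by
  rw [← fr_id hρ.herm, trace_mul_fc]
  refine (Complex.abs_re_le_norm _).trans ((norm_sum_le _ _).trans ?_)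
  rw [← hρ.sum_ev]
  refine Finset.sum_le_sum fun i _ => ?_
  have h1 := norm_inner_ap_le O (evec ρ i) (evec ρ i)
  rw [norm_evec, mul_one, mul_one] at h1
  rw [norm_mul, Complex.norm_real, Real.norm_eq_abs, abs_of_nonneg (ev_nonneg hρ.psd i)]
  exact mul_le_of_le_one_right (ev_nonneg hρ.psd i) (h1.trans hn)

variable {q : ℕ} {Λ : Type} [Fintype Λ] [DecidableEq Λ] [Nonempty (Fin q)]

/-- contraction of an operator on the doubled system with a state on one of the copies -/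
lemma contract {e e' : Λ ↪ Bool × Λ} (hr : rg e' = (rg e)ᶜ) (he : ∀ x, (e x).2 = x)
    {Y : Finset Λ} {O : Q.Op fun _ : Bool × Λ => Fin q}
    (hO : Supp (univ.filter fun p : Bool × Λ => p.2 ∈ Y) O) (hH : O.IsHermitian) (hn : ‖O‖ ≤ 1)
    {ρ : Q.Op fun _ : Λ => Fin q} (hρ : Dens ρ) :
    ∃ O₁ : Q.Op fun _ : Λ => Fin q, Supp Y O₁ ∧ O₁.IsHermitian ∧ ‖O₁‖ ≤ 1 ∧ ∀ m, trace (O₁ * m) =
      trace (O * (emb (d := fun _ => Fin q) e m * emb (d := fun _ => Fin q) e' ρ)) := by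
  have hd : Disjoint (rg e) (rg e') := hr ▸ disjoint_compl_right
  have hs : Supp (rg e)ᶜ (emb (d := fun _ => Fin q) e' ρ) := hr ▸ supp_emb _ _
  have hc : ∀ a b, Commute (emb (d := fun _ => Fin q) e a) (emb (d := fun _ => Fin q) e' b) :=
    fun a b => (supp_emb _ a).commute (supp_emb _ b) hd
  have htr : ∀ m, trace (red (d := fun _ => Fin q) e (emb (d := fun _ => Fin q) e' ρ * O) * m) =
      trace (O * (emb (d := fun _ => Fin q) e m * emb (d := fun _ => Fin q) e' ρ)) := fun m => by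
    rw [← trace_mul_emb, mul_assoc, trace_mul_comm, mul_assoc]
  have hh : (red (d := fun _ => Fin q) e (emb (d := fun _ => Fin q) e' ρ * O)).IsHermitian := by
    change _ᴴ = _
    rw [← red_conjTranspose, conjTranspose_mul, hH.eq, (emb_isHermitian _ hρ.herm).eq,
      red_mul_comm hs]
  refine ⟨_, supp_of_commute fun B hB => ?_, hh, norm_le_of_re_inner hh fun v hv => ?_, htr⟩
  · have h1 : Commute O (emb (d := fun _ => Fin q) e B) := hO.commute (hB.emb e) (by
      rw [disjoint_left]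
      intro p hp hp'
      obtain ⟨x, hx, rfl⟩ := mem_map.1 hp'
      rw [mem_filter, he] at hp
      exact mem_compl.1 hx hp.2)
    refine (red_mul_emb (d := fun _ => Fin q) e B _).symm.trans
      (Eq.trans ?_ (red_emb_mul (d := fun _ => Fin q) e B _))
    rw [mul_assoc, h1.eq, ← mul_assoc, ← (hc _ _).eq, mul_assoc]
  · rw [← trace_mul_kb, htr]
    refine abs_re_trace_le hn ⟨posSemidef_mul_of_commute (emb_posSemidef _ (pj_posSemidef v))
      (emb_posSemidef _ hρ.psd) (hc _ _), ?_⟩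
    rw [trace_emb_mul_emb hd, hr, union_compl, compl_univ, dim_empty, hρ.tr, (dens_pj hv).tr]
    simp

theorem exch_of_td (Ω : N336.Vec Λ q) (hΩ : ‖Ω‖ = 1) {A F : Finset Λ} {δ : ℝ}
    (h : ∀ O : Q.Op fun _ : Λ => Fin q, Supp (A ∪ F) O → O.IsHermitian → ‖O‖ ≤ 1 →
      |(trace (O * pj Ω)).re - (trace (O * piZ (d := fun _ => Fin q) A (pj Ω))).re| ≤ δ) :
    Exch Ω A F (2 * Real.sqrt δ) := by
  have hw : Dens (pj Ω) := dens_pj hΩ
  have hπ := hw.piZ (d := fun _ => Fin q) A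
  set π := piZ (d := fun _ => Fin q) A (pj Ω) with hπd
  obtain ⟨U, hU, h1, h2, h3⟩ := uhl (Bool × Λ) (fun _ => Fin q)
    (univ.filter fun p : Bool × Λ => p.2 ∈ A ∪ F) (swp ∅ Ω) (swp A Ω) (4 * δ) fun O hO hH hn => by
    have key : ∀ Z : Finset Λ, |(⟪swp Z Ω, ap O (swp Z Ω)⟫_ℂ).re - (trace (O *
        (emb (d := fun _ => Fin q) (e1 Z) π * emb (d := fun _ => Fin q) (e2 Z) π))).re| ≤ 2 * δ := by
      intro Z
      obtain ⟨O₁, a1, a2, a3, a4⟩ := contract (rg_e2 Z) (fun _ => rfl) hO hH hn hw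
      obtain ⟨O₂, b1, b2, b3, b4⟩ := contract (e := e2 Z) (e' := e1 Z)
        (by rw [rg_e2, compl_compl]) (fun _ => rfl) hO hH hn hπ
      have c1 := h O₁ a1 a2 a3
      have c2 := h O₂ b1 b2 b3
      rw [a4, a4] at c1
      rw [b4, b4, ← (commute_e1_e2 Z _ _).eq, ← (commute_e1_e2 Z _ _).eq] at c2
      rw [← trace_mul_kb, show kb (swp Z Ω) (swp Z Ω) = _ from pj_swp Z Ω]
      exact (abs_sub_le _ _ _).trans (by linarith)
    have e : emb (d := fun _ => Fin q) (e1 ∅) π * emb (d := fun _ => Fin q) (e2 ∅) π =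
        emb (d := fun _ => Fin q) (e1 A) π * emb (d := fun _ => Fin q) (e2 A) π := by
      have sa := supp_mg (d := fun _ => Fin q) A (pj Ω)
      have sb := supp_mg (d := fun _ => Fin q) Aᶜ (pj Ω)
      rw [hπd, piZ]
      simp only [map_mul]
      rw [emb_congr (e := e1 ∅) (e' := e2 A) (fun x hx => by simp [hx]) sa,
        emb_congr (e := e1 ∅) (e' := e1 A) (fun x hx => by simp [mem_compl.1 hx]) sb,
        emb_congr (e := e2 ∅) (e' := e1 A) (fun x hx => by simp [hx]) sa,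
        emb_congr (e := e2 ∅) (e' := e2 A) (fun x hx => by simp [mem_compl.1 hx]) sb,
        ← (commute_e1_e2 A _ _).eq, ← mul_assoc, ← mul_assoc, mul_assoc _ (emb (e2 A) _),
        ← (commute_e1_e2 A _ _).eq, ← mul_assoc, ← map_mul,
        ← (sa.commute sb disjoint_compl_right).eq, map_mul]
    have k1 := abs_le.1 (key ∅)
    have k2 := abs_le.1 (key A)
    rw [e] at k1
    linarith [k1.2, k2.1]
  refine ⟨U, Matrix.mem_unitaryGroup_iff.2 h2, isSupportedOn_iff.2 (hU.mono fun p hp => ?_), ?_⟩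
  · simpa using hp
  · have : ‖ap U (swp ∅ Ω) - swp A Ω‖ ≤ Real.sqrt (4 * δ) := Real.le_sqrt_of_sq_le h3
    rw [Real.sqrt_mul (by norm_num), show Real.sqrt 4 = 2 by
      rw [show (4 : ℝ) = 2 ^ 2 by norm_num, Real.sqrt_sq zero_le_two]] at this
    exact this

end Crest.Agent.N336.A.Amp
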