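import Crest.Agent.N336.A.AmpC
import Crest.Agent.N336.A.AmpD

/-!
# Row 336: the amplification lemma `AmpStmt` (helper33)
-/

set_option autoImplicit false

open Matrix Finset
open scoped ComplexOrder MatrixOrder Matrix.Norms.L2Operator InnerProductSpace

namespace Crest.Agent.N336

open Q A A.Amp Crest.MathPhysics.LatticeSpin

section
variable {q : ℕ} {Λ : Type} [Fintype Λ] [DecidableEq Λ]

lemma Exch.mono {Ω : Vec Λ q} {A F : Finset Λ} {a b : ℝ} (h : Exch Ω A F a) (hab : a ≤ b) :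
    Exch Ω A F b := by
  obtain ⟨U, h1, h2, h3⟩ := h
  exact ⟨U, h1, h2, h3.trans hab⟩

lemma exch_two [Nonempty (Fin q)] {Ω : Vec Λ q} (h : ‖Ω‖ = 1) (A F : Finset Λ) : Exch Ω A F 2 := by
  refine ⟨1, one_mem _, isSupportedOn_iff.2 (Supp.one _), ?_⟩
  change ‖ap 1 (swp ∅ Ω) - swp A Ω‖ ≤ 2
  rw [ap_one]
  refine (norm_sub_le _ _).trans ?_
  rw [norm_swp _ h, norm_swp _ h]; norm_num
end

lemma amp_eps {κ x B : ℝ} {N : ℕ} (hκ : κ ≤ 1 / 2) (hx : 0 ≤ x) (hB : 0 ≤ B)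
    (hN : κ * x ≤ N + 1) : 2 * (Real.exp 1)⁻¹ ^ N + 2 * B * ((x + 1) ^ 2 * Real.exp (-x)) ≤
      32 * (B + 1) * Real.exp (-(κ * x)) := by
  have h1 : (Real.exp 1)⁻¹ ^ N ≤ 3 * Real.exp (-(κ * x)) := by
    rw [← Real.exp_neg, ← Real.exp_nat_mul]
    calc Real.exp (N * -1) ≤ Real.exp (1 + -(κ * x)) := Real.exp_le_exp.2 (by linarith)
      _ ≤ _ := by
        rw [Real.exp_add]
        exact mul_le_mul_of_nonneg_right (Real.exp_one_lt_three.le) (Real.exp_pos _).le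
  have h2 : (x + 1) ^ 2 * Real.exp (-x) ≤ 16 * Real.exp (-(κ * x)) := by
    have h3 : x + 1 ≤ 4 * Real.exp (x / 4) := by linarith [Real.add_one_le_exp (x / 4)]
    calc (x + 1) ^ 2 * Real.exp (-x) ≤ (4 * Real.exp (x / 4)) ^ 2 * Real.exp (-x) := by gcongr
      _ = 16 * Real.exp (x / 4 + x / 4 + -x) := by rw [Real.exp_add, Real.exp_add]; ring
      _ ≤ _ := by gcongr; nlinarith
  nlinarith [Real.exp_pos (-(κ * x)), mul_le_mul_of_nonneg_left h2 hB]

theorem amp : AmpStmt := by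
  intro q R J Δ hq hJ hΔ
  have : Nonempty (Fin q) := ⟨⟨0, hq⟩⟩
  set T : ℝ := 2 * Real.exp 1 / Δ with hT
  have hT0 : 0 < T := by positivity
  have hg := gJ_pos R hJ
  set a : ℝ := Real.exp 2 * (2 * ((4 * R + 1) ^ 2 : ℕ) * gJ R J * T) with ha
  have ha0 : 0 < a := by positivity
  set κ : ℝ := min (1 / 2) a⁻¹ with hκ
  have hκ0 : 0 < κ := by positivity
  have hκ1 : κ ≤ 1 / 2 := min_le_left _ _
  have hκ2 : a * κ ≤ 1 := by
    rw [← mul_inv_cancel₀ ha0.ne']; exact mul_le_mul_of_nonneg_left (min_le_right _ _) ha0.le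
  have hR : (0 : ℝ) < 2 * R + 1 := by positivity
  refine ⟨κ / (2 * (2 * R + 1)), 32, by positivity, by norm_num, ?_⟩
  intro Λ _ _ s A F A' F' w t hd hA hF ht
  have hΩ : ‖s.Ω‖ = 1 := s.gap.1
  have ht0 : 0 ≤ t := by
    refine le_trans ?_ ht
    simp only [MI, S_eq]
    linarith [(dens_pj hΩ).SX_union_le (d := fun _ => Fin q) A' F']
  set B : ℝ := (((A ∪ F)ᶜ).card : ℝ) with hB
  have hB0 : 0 ≤ B := Nat.cast_nonneg _
  set y : ℝ := w / (2 * R + 1) with hy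
  have hc : κ / (2 * (2 * R + 1)) * w = κ * y / 2 := by rw [hy]; field_simp
  rw [hc]
  have hlt : y < (w / (2 * R + 1) : ℕ) + 1 := by
    rw [hy, div_lt_iff₀ hR]
    have := Nat.lt_mul_div_succ w (Nat.succ_pos (2 * R))
    rw [mul_comm] at this
    exact_mod_cast this
  rcases Nat.eq_zero_or_pos (w / (2 * R + 1)) with h0 | h0
  · refine (exch_two hΩ A F).mono ?_
    rw [h0] at hlt
    have := Real.add_one_le_exp (t - κ * y / 2)
    have hy1 : κ * y ≤ 1 / 2 := by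
      have : (0 : ℝ) ≤ y := by positivity
      push_cast at hlt
      nlinarith
    nlinarith [Real.exp_pos (t - κ * y / 2)]
  obtain ⟨w', hw'⟩ : ∃ w', w / (2 * R + 1) = w' + 1 := ⟨_, (Nat.succ_pred_eq_of_pos h0).symm⟩
  have hx : (0 : ℝ) ≤ w' := Nat.cast_nonneg _
  have hε := amp_eps hκ1 hx hB0 (Nat.lt_floor_add_one (κ * w')).le
  have hfl : (⌊κ * w'⌋₊ : ℝ) ≤ κ * w' := Nat.floor_le (by positivity)
  have hTΔ : 2 / (T * Δ) = (Real.exp 1)⁻¹ := by rw [hT]; field_simp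
  have key := exch_of_td s.Ω hΩ (td s hJ hΔ hd (fun x hx y hy => hA x hx y (mem_ball.1 hy))
    (fun x hx y hy => hF x hx y (mem_ball.1 hy)) ht (w' := w') (N := ⌊κ * w'⌋₊)
    (ε := 32 * (B + 1) * Real.exp (-(κ * w'))) hT0 hw'.ge
    (by nlinarith [mul_le_mul_of_nonneg_left hfl ha0.le, mul_le_mul_of_nonneg_right hκ2 hx])
    (by rw [hTΔ]; exact hε))
  refine key.mono ?_
  have h1 : Real.exp (-(κ * w')) * Real.exp (t / 2) ≤ 3 * Real.exp (t - κ * y / 2) ^ 2 := by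
    rw [← Real.exp_add, sq, ← Real.exp_add]
    rw [hw'] at hlt
    push_cast at hlt
    calc _ ≤ Real.exp (1 + (t - κ * y / 2 + (t - κ * y / 2))) := Real.exp_le_exp.2 (by nlinarith)
      _ ≤ _ := by
        rw [Real.exp_add]
        exact mul_le_mul_of_nonneg_right (Real.exp_one_lt_three.le) (Real.exp_pos _).le
  have h2 : Real.sqrt (2 * (32 * (B + 1) * Real.exp (-(κ * w'))) * Real.exp (t / 2)) ≤
      16 * (B + 1) * Real.exp (t - κ * y / 2) := by
    refine Real.sqrt_le_iff.2 ⟨by positivity, ?_⟩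
    have h3 : 0 ≤ Real.exp (t - κ * y / 2) ^ 2 := sq_nonneg _
    nlinarith [mul_le_mul_of_nonneg_left h1 (by positivity : (0 : ℝ) ≤ B + 1),
      mul_nonneg (mul_nonneg hB0 hB0) h3, mul_nonneg hB0 h3]
  linarith

end Crest.Agent.N336
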