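import Crest.Agent.N336.A.Geo
import Crest.Agent.N336.A.Loc
import Crest.Agent.N336.Q.Uhl
import Crest.Agent.N336.Q.EntM

/-!
# Row 336, amplification: abstract tools (doubled gap, Hilbert-Schmidt bound)
-/

set_option autoImplicit false
set_option linter.unusedSectionVars false

open Matrix Finset
open scoped ComplexOrder MatrixOrder Matrix.Norms.L2Operator InnerProductSpace

namespace Crest.Agent.N336.A.Amp

open Crest.Agent.N336.Q

variable {n m : Type} [Fintype n] [DecidableEq n] [Fintype m] [DecidableEq m]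

lemma re_inner_pj (Ω ψ : Q.Vec n) : (⟪ψ, ap (pj Ω) ψ⟫_ℂ).re = ‖⟪Ω, ψ⟫_ℂ‖ ^ 2 := by
  rw [ap_kb, inner_smul_right, ← inner_conj_symm ψ Ω, Complex.mul_conj, Complex.ofReal_re,
    Complex.normSq_eq_norm_sq]

lemma re_inner_self' (ψ : Q.Vec n) : (⟪ψ, ψ⟫_ℂ).re = ‖ψ‖ ^ 2 := inner_self_eq_norm_sq (𝕜 := ℂ) ψ

lemma re_inner_gap (H P : Matrix n n ℂ) (E Δ : ℝ) (ψ : Q.Vec n) :
    (⟪ψ, ap (H - (E : ℂ) • 1 - (Δ : ℂ) • (1 - P)) ψ⟫_ℂ).re =
      (⟪ψ, ap H ψ⟫_ℂ).re - E * ‖ψ‖ ^ 2 - Δ * (‖ψ‖ ^ 2 - (⟪ψ, ap P ψ⟫_ℂ).re) := by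
  simp only [ap_sub, ap_smul, ap_one, inner_sub_right, inner_smul_right, Complex.sub_re,
    Complex.re_ofReal_mul, re_inner_self']

lemma Gap.psd {H : Matrix n n ℂ} {Ω : Q.Vec n} {E Δ : ℝ} (h : Gap H Ω E Δ) :
    (H - (E : ℂ) • 1 - (Δ : ℂ) • (1 - pj Ω)).PosSemidef := by
  refine posSemidef_of_re_inner ?_ fun v => ?_
  · refine (h.herm.sub (isHermitian_one.smul ?_)).sub
      ((isHermitian_one.sub (pj_isHermitian Ω)).smul ?_) <;> simp [IsSelfAdjoint]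
  · rw [re_inner_gap, re_inner_pj]
    linarith [h.gap v]

lemma pj_mul_self {Ω : Q.Vec n} (h : ‖Ω‖ = 1) : pj Ω * pj Ω = pj Ω := by
  rw [mul_kb, ap_kb, inner_self_eq_norm_sq_to_K, h]; simp

lemma ap_pj_self {Ω : Q.Vec n} (h : ‖Ω‖ = 1) : ap (pj Ω) Ω = Ω := by
  rw [ap_kb, inner_self_eq_norm_sq_to_K, h]; simp

/-- the gap of a sum of two commuting copies -/
lemma gap_double {H : Matrix n n ℂ} {Ω : Q.Vec n} {E Δ : ℝ} (h : Gap H Ω E Δ) (hΔ : 0 ≤ Δ)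
    (φ₁ φ₂ : Matrix n n ℂ →⋆ₐ[ℂ] Matrix m m ℂ) (hc : ∀ a b, Commute (φ₁ a) (φ₂ b))
    (hp₁ : ∀ a, a.PosSemidef → (φ₁ a).PosSemidef) (hp₂ : ∀ a, a.PosSemidef → (φ₂ a).PosSemidef)
    {ψ : Q.Vec m} (h1 : ‖ψ‖ = 1) (hψ : pj ψ = φ₁ (pj Ω) * φ₂ (pj Ω)) :
    Gap (φ₁ H + φ₂ H) ψ (2 * E) Δ := by
  have hH : H * pj Ω = (E : ℂ) • pj Ω := by rw [mul_kb, h.eig, kb_smul_left]
  have herm : ∀ (φ : Matrix n n ℂ →⋆ₐ[ℂ] Matrix m m ℂ) a, a.IsHermitian → (φ a).IsHermitian :=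
    fun φ a ha => (map_star φ a).symm.trans (congrArg φ ha)
  refine ⟨(herm _ _ h.herm).add (herm _ _ h.herm), h1, ?_, fun v => ?_⟩
  · have e1 : φ₁ H * pj ψ = (E : ℂ) • pj ψ := by
      rw [hψ, ← mul_assoc, ← map_mul, hH, map_smul, smul_mul_assoc]
    have e2 : φ₂ H * pj ψ = (E : ℂ) • pj ψ := by
      rw [hψ, (hc _ _).eq, ← mul_assoc, ← map_mul, hH, map_smul, smul_mul_assoc]
    rw [← ap_pj_self h1, ← ap_mul, add_mul, e1, e2, ← add_smul, ap_smul, ap_pj_self h1]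
    congr 1
    push_cast; ring
  · have hq : (1 - pj Ω) * (1 - pj Ω) = 1 - pj Ω := by
      rw [sub_mul, mul_sub, mul_sub, pj_mul_self h.norm]; simp
    have hq' : (1 - pj Ω).IsHermitian := isHermitian_one.sub (pj_isHermitian Ω)
    have h3 : (φ₁ (1 - pj Ω) * φ₂ (1 - pj Ω)).PosSemidef := by
      refine proj_posSemidef ?_ ?_
      · change (_ * _)ᴴ = _
        rw [conjTranspose_mul, herm _ _ hq', herm _ _ hq', (hc _ _).eq]
      · rw [(hc _ _).symm.mul_mul_mul_comm, ← map_mul, ← map_mul, hq]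
    have h4 := ((hp₁ _ (Gap.psd h)).add (hp₂ _ (Gap.psd h))).add (posSemidef_real_smul hΔ h3)
    have h5 : φ₁ (H - (E : ℂ) • 1 - (Δ : ℂ) • (1 - pj Ω)) + φ₂ (H - (E : ℂ) • 1 - (Δ : ℂ) • (1 - pj Ω))
        + (Δ : ℂ) • (φ₁ (1 - pj Ω) * φ₂ (1 - pj Ω)) =
        φ₁ H + φ₂ H - ((2 * E : ℝ) : ℂ) • 1 - (Δ : ℂ) • (1 - pj ψ) := by
      rw [hψ]
      simp only [map_sub, map_smul, map_one, sub_mul, mul_sub, one_mul, mul_one]
      push_cast
      module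
    rw [h5] at h4
    have := re_inner_ap_nonneg h4 v
    rw [re_inner_gap, re_inner_pj] at this
    linarith

/-- a matrix as a vector -/
noncomputable def vec (M : Matrix n n ℂ) : Q.Vec (n × n) := WithLp.toLp 2 fun p => M p.1 p.2

lemma inner_vec (M N : Matrix n n ℂ) : ⟪vec M, vec N⟫_ℂ = trace (Mᴴ * N) := by
  rw [inner_eq_sum, Fintype.sum_prod_type, Finset.sum_comm]
  simp [vec, trace, mul_apply]

/-- Cauchy-Schwarz for the trace form -/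
lemma hs_cs {M N : Matrix n n ℂ} {a b : ℝ} (ha : 0 ≤ a) (hb : 0 ≤ b)
    (hM : (trace (Mᴴ * M)).re ≤ a ^ 2) (hN : (trace (Nᴴ * N)).re ≤ b ^ 2) :
    ‖trace (Mᴴ * N)‖ ≤ a * b := by
  rw [← inner_vec, re_inner_self'] at hM hN
  rw [← inner_vec]
  exact (norm_inner_le_norm _ _).trans (mul_le_mul (abs_le_of_sq_le_sq' hM ha).2
    (abs_le_of_sq_le_sq' hN hb).2 (norm_nonneg _) ha)

/-- comparison of two expectation values through the overlap of the two states -/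
lemma cmp {W r Y : Matrix n n ℂ} (hr : r.PosSemidef) (hY : Y.IsHermitian) {c c' D ε k : ℝ}
    (hD : 0 ≤ D) (hε : 0 ≤ ε) (h1 : (trace r).re ≤ D) (h2 : (trace (W * Wᴴ)).re ≤ D)
    (h3 : (trace ((Y - (c : ℂ) • 1) * (Y - (c : ℂ) • 1) * r)).re ≤ D * ε ^ 2)
    (h4 : (trace ((Y - (c' : ℂ) • 1) * (Y - (c' : ℂ) • 1) * (W * Wᴴ))).re ≤ D * ε ^ 2)
    (hk : k ≤ (trace (Wᴴ * fr Real.sqrt r)).re) : |c - c'| * k ≤ 2 * (D * ε) := by
  set s := fr Real.sqrt r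
  have hs : sᴴ = s := fr_isHermitian _ _
  have hss : s * s = r := fr_sqrt_mul_self hr
  have hh : ∀ x : ℝ, (Y - (x : ℂ) • 1)ᴴ = Y - (x : ℂ) • 1 := fun x => by
    rw [conjTranspose_sub, hY.eq, conjTranspose_smul, conjTranspose_one]; simp
  have hq := Real.sq_sqrt hD
  have hq0 := Real.sqrt_nonneg D
  have b1 : ‖trace (Wᴴ * ((Y - (c : ℂ) • 1) * s))‖ ≤ √D * (√D * ε) := by
    refine hs_cs hq0 (by positivity) (by rw [hq, trace_mul_comm]; exact h2) ?_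
    rw [mul_pow, hq, conjTranspose_mul, hh, hs, mul_assoc, trace_mul_comm, mul_assoc, mul_assoc,
      hss, ← mul_assoc]
    exact h3
  have b2 : ‖trace (((Y - (c' : ℂ) • 1) * W)ᴴ * s)‖ ≤ (√D * ε) * √D := by
    refine hs_cs (by positivity) hq0 ?_ (by rw [hq, hs, hss]; exact h1)
    rw [mul_pow, hq, conjTranspose_mul, hh, mul_assoc, trace_mul_comm, mul_assoc, mul_assoc,
      ← mul_assoc]
    exact h4
  have e : trace (((Y - (c' : ℂ) • 1) * W)ᴴ * s) - trace (Wᴴ * ((Y - (c : ℂ) • 1) * s)) =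
      ((c - c' : ℝ) : ℂ) * trace (Wᴴ * s) := by
    rw [conjTranspose_mul, hh]
    simp only [mul_sub, sub_mul, mul_smul_comm, smul_mul_assoc, mul_one, one_mul, trace_sub,
      trace_smul, mul_assoc, smul_eq_mul]
    push_cast; ring
  have b3 : |c - c'| * ‖trace (Wᴴ * s)‖ ≤ 2 * (D * ε) := by
    have := norm_sub_le_of_le b2 b1
    rw [e, norm_mul, Complex.norm_real, Real.norm_eq_abs] at this
    nlinarith
  exact (mul_le_mul_of_nonneg_left (hk.trans (Complex.re_le_norm _)) (abs_nonneg _)).trans b3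

end Crest.Agent.N336.A.Amp
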