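import Crest.Agent.N336.A.AmpL
import Crest.Agent.N336.Q.EntMain

/-!
# Row 336, amplification, part (C): the marginal on `A ∪ F` is close to the product
-/

set_option autoImplicit false
set_option linter.unusedSectionVars false

open Matrix Finset
open scoped ComplexOrder MatrixOrder Matrix.Norms.L2Operator InnerProductSpace

namespace Crest.Agent.N336.A.Amp

open Crest.Agent.N336.Q

variable {q R : ℕ} {J Δ : ℝ} {Λ : Type} [Fintype Λ] [DecidableEq Λ] [Nonempty (Fin q)]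

lemma inner_swp (Z : Finset Λ) (Ω : N336.Vec Λ q) (M : Q.Op fun _ : Λ => Fin q) :
    ⟪swp Z Ω, ap (emb (d := fun _ => Fin q) (sh false) M) (swp Z Ω)⟫_ℂ =
      trace (M * piZ (d := fun _ => Fin q) Z (pj Ω)) := by
  rw [← trace_mul_kb, trace_emb_mul, red_swp]

lemma sq_bound {Z : Finset Λ} {Ω : N336.Vec Λ q} {O Y : Q.Op fun _ : Λ => Fin q} {ε c : ℝ}
    (hO : O.IsHermitian) (hY : Y.IsHermitian)
    (hc : c = (trace (O * piZ (d := fun _ => Fin q) Z (pj Ω))).re)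
    (h : ‖ap (emb (d := fun _ => Fin q) (sh false) Y) (swp Z Ω) -
      ⟪swp Z Ω, ap (emb (d := fun _ => Fin q) (sh false) O) (swp Z Ω)⟫_ℂ • swp Z Ω‖ ≤ ε) :
    (trace ((Y - (c : ℂ) • 1) * (Y - (c : ℂ) • 1) * piZ (d := fun _ => Fin q) Z (pj Ω))).re ≤
      ε ^ 2 := by
  have h1 : ⟪swp Z Ω, ap (emb (d := fun _ => Fin q) (sh false) O) (swp Z Ω)⟫_ℂ = (c : ℂ) := by
    refine Complex.ext ?_ ?_
    · rw [inner_swp, hc, Complex.ofReal_re]
    · rw [im_inner_ap (emb_isHermitian _ hO), Complex.ofReal_im]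
  have hh : (Y - (c : ℂ) • 1)ᴴ = Y - (c : ℂ) • 1 := by
    rw [conjTranspose_sub, hY.eq, conjTranspose_smul, conjTranspose_one]; simp
  have h2 : ap (emb (d := fun _ => Fin q) (sh false) (Y - (c : ℂ) • 1)) (swp Z Ω) =
      ap (emb (d := fun _ => Fin q) (sh false) Y) (swp Z Ω) - (c : ℂ) • swp Z Ω := by
    rw [map_sub, map_smul, map_one, ap_sub, ap_smul, ap_one]
  rw [h1, ← h2] at h
  have h3 := norm_ap_sq (emb (d := fun _ => Fin q) (sh false) (Y - (c : ℂ) • 1)) (swp Z Ω)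
  rw [← emb_conjTranspose, hh, ← map_mul, inner_swp] at h3
  rw [← h3]
  exact pow_le_pow_left₀ (norm_nonneg _) h 2

/-- trace distance of the marginal and the product of the marginals -/
theorem td (s : Sys q R J Δ Λ) (hJ : 0 < J) (hΔ : 0 < Δ)
    {A F A' F' : Finset Λ} {w : ℕ} (hd : Disjoint A' F') (hA : ∀ x ∈ A, ball s x w ⊆ A')
    (hF : ∀ x ∈ F, ball s x w ⊆ F') {t : ℝ} (ht : MI s.Ω A' F' ≤ t) {w' N : ℕ} {T ε : ℝ}
    (hT : 0 < T) (hw : w' + 1 ≤ w / (2 * R + 1))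
    (hN : Real.exp 2 * (2 * ((4 * R + 1) ^ 2 : ℕ) * gJ R J * (N * T)) ≤ w')
    (hε : 2 * (2 / (T * Δ)) ^ N + 2 * ((A ∪ F)ᶜ).card * ((w' + 1 : ℝ) ^ 2 * Real.exp (-w')) ≤ ε)
    (O : Q.Op fun _ : Λ => Fin q) (hO : Supp (A ∪ F) O) (hH : O.IsHermitian) (hn : ‖O‖ ≤ 1) :
    |(trace (O * pj s.Ω)).re - (trace (O * piZ (d := fun _ => Fin q) A (pj s.Ω))).re| ≤
      2 * ε * Real.exp (t / 2) := by
  have hΩ : ‖s.Ω‖ = 1 := s.gap.1
  have hw0 : Dens (pj s.Ω) := dens_pj hΩ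
  have hε0 : 0 ≤ ε := le_trans (by positivity) hε
  have hAA : A ⊆ A' := fun x hx => hA x hx (mem_ball_self _ _ _)
  have hFF : F ⊆ F' := fun x hx => hF x hx (mem_ball_self _ _ _)
  have hF' : F' ⊆ A'ᶜ := le_compl_iff_disjoint_left.2 hd
  set Y := flt s A' F' T N O
  have hY : Y.IsHermitian := flt_herm s _ _ _ _ hH
  have hYs : Supp (A' ∪ F') Y := flt_supp s _ _ _ _ (hO.mono (union_subset_union hAA hFF))
  set D : ℝ := ((dim (fun _ : Λ => Fin q) (A' ∪ F')ᶜ : ℕ) : ℝ) with hD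
  have hD0 : 0 < D := dim_pos_real _
  have key : ∀ Z : Finset Λ, (∀ x ∈ A', ∀ y ∈ A', x ∈ Z ↔ y ∈ Z) →
      (∀ x ∈ F', ∀ y ∈ F', x ∈ Z ↔ y ∈ Z) → ∀ c : ℝ,
      c = (trace (O * piZ (d := fun _ => Fin q) Z (pj s.Ω))).re →
      (trace ((Y - (c : ℂ) • 1) * (Y - (c : ℂ) • 1) *
        mg (A' ∪ F') (piZ (d := fun _ => Fin q) Z (pj s.Ω)))).re ≤ D * ε ^ 2 := by
    intro Z h1 h2 c hc
    have hs : Supp (A' ∪ F') (Y - (c : ℂ) • 1) := hYs.sub ((Supp.one _).smul _)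
    rw [(hs.mul hs).trace_mul_mg, ← Complex.ofReal_natCast, Complex.re_ofReal_mul]
    refine mul_le_mul_of_nonneg_left (sq_bound hH hY hc (le_trans ?_ hε)) hD0.le
    exact doubled s hJ hΔ hA hF h1 h2 (fun b => if b then e2 Z else e1 Z)
      (fun b x => by cases b <;> simp) (sh false) (fun _ => rfl) (norm_swp Z hΩ) (pj_swp Z s.Ω)
      hO hn hT hw hN
  have k1 := key ∅ (by simp) (by simp) _ rfl
  have k2 := key A' (fun x hx y hy => by simp [hx, hy])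
    (fun x hx y hy => by simp [mem_compl.1 (hF' hx), mem_compl.1 (hF' hy)]) _ rfl
  rw [piZ_empty hw0] at k1
  have hσ := mg_posSemidef (A' ∪ F') (hw0.piZ (d := fun _ => Fin q) A').psd
  have hW : (fr Real.sqrt (mg (A' ∪ F') (piZ (d := fun _ => Fin q) A' (pj s.Ω))))ᴴ = _ :=
    fr_isHermitian _ _
  have hov := overlap (d := fun _ => Fin q) hd hw0
  rw [← fr_sqrt_mg_mul hd hw0.psd hw0.psd, ← mg_piZ Subset.rfl hF', ← hW] at hov
  have htr : ∀ ω : Q.Op fun _ : Λ => Fin q, Dens ω → (trace (mg (A' ∪ F') ω)).re ≤ D :=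
    fun ω hω => by rw [trace_mg, hω.tr, mul_one, Complex.natCast_re]
  have k3 := cmp (mg_posSemidef (A' ∪ F') hw0.psd) hY hD0.le hε0 (htr _ hw0)
    (by rw [hW, fr_sqrt_mul_self hσ]; exact htr _ (hw0.piZ _)) k1
    (by rw [hW, fr_sqrt_mul_self hσ]; exact k2) hov
  have e : trace (O * piZ (d := fun _ => Fin q) A' (pj s.Ω)) =
      trace (O * piZ (d := fun _ => Fin q) A (pj s.Ω)) := by
    refine mul_left_cancel₀ (dim_ne_zero (d := fun _ : Λ => Fin q) (A ∪ F)ᶜ) ?_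
    rw [← hO.trace_mul_mg, ← hO.trace_mul_mg, mg_piZ hAA (hFF.trans hF'), mg_piZ Subset.rfl
      (hFF.trans (hF'.trans (compl_subset_compl.2 hAA)))]
  rw [e, ← hD] at k3
  simp only [MI, S_eq] at ht
  set x := |(trace (O * pj s.Ω)).re - (trace (O * piZ (d := fun _ => Fin q) A (pj s.Ω))).re|
  have hx : 0 ≤ x := abs_nonneg _
  have h5 : Real.exp (-t / 2) * x ≤ 2 * ε := by
    have h6 : Real.exp (-t / 2) ≤ Real.exp (-(SX A' (pj s.Ω) + SX F' (pj s.Ω) -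
        SX (d := fun _ => Fin q) (A' ∪ F') (pj s.Ω)) / 2) := Real.exp_le_exp.2 (by linarith)
    refine le_of_mul_le_mul_left ?_ hD0
    nlinarith [mul_le_mul_of_nonneg_left h6 (mul_nonneg hx hD0.le)]
  have h7 : Real.exp (t / 2) * Real.exp (-t / 2) = 1 := by rw [← Real.exp_add]; simp [neg_div]
  nlinarith [mul_le_mul_of_nonneg_left h5 (Real.exp_pos (t / 2)).le]

end Crest.Agent.N336.A.Amp
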