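import Crest.Agent.N336.A.Amp0

/-!
# Row 336, amplification, part (L): the local filter works in the doubled system
-/

set_option autoImplicit false
set_option linter.unusedSectionVars false

open Matrix Finset
open scoped ComplexOrder MatrixOrder Matrix.Norms.L2Operator InnerProductSpace

namespace Crest.Agent.N336.A.Amp

open Crest.Agent.N336.Q

variable {q R : ℕ} {J Δ : ℝ} {Λ : Type} [Fintype Λ] [DecidableEq Λ]

/-- the sites whose grouped term lives inside `A'` or inside `F'` -/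
noncomputable def good (s : Sys q R J Δ Λ) (A' F' : Finset Λ) : Finset Λ :=
  univ.filter fun v => ball s v R ⊆ A' ∨ ball s v R ⊆ F'

/-- the local filter -/
noncomputable def flt (s : Sys q R J Δ Λ) (A' F' : Finset Λ) (T : ℝ) (N : ℕ)
    (O : Q.Op fun _ : Λ => Fin q) : Q.Op fun _ : Λ => Fin q :=
  (Av (∑ v ∈ good s A' F', hv s v) T)^[N] O

lemma herm_H0 (s : Sys q R J Δ Λ) (G : Finset Λ) : (∑ v ∈ G, hv s v).IsHermitian :=
  (conjTranspose_sum _ _).trans (Finset.sum_congr rfl fun v _ => hv_herm s v)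

lemma flt_herm (s : Sys q R J Δ Λ) (A' F' : Finset Λ) (T : ℝ) (N : ℕ) {O : Q.Op fun _ : Λ => Fin q}
    (h : O.IsHermitian) : (flt s A' F' T N O).IsHermitian :=
  Av_iter_isHermitian (herm_H0 s _) T h N

lemma map_iter {n m : Type} [Fintype n] [DecidableEq n] [Fintype m] [DecidableEq m]
    (φ : Matrix n n ℂ →⋆ₐ[ℂ] Matrix m m ℂ) (H : Matrix n n ℂ) (T : ℝ) (N : ℕ) (X : Matrix n n ℂ) :
    φ ((Av H T)^[N] X) = (Av (φ H) T)^[N] (φ X) := map_Av_iter φ.toAlgHom H T N X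

lemma flt_supp (s : Sys q R J Δ Λ) (A' F' : Finset Λ) (T : ℝ) (N : ℕ) {O : Q.Op fun _ : Λ => Fin q}
    (h : Supp (A' ∪ F') O) : Supp (A' ∪ F') (flt s A' F' T N O) := by
  have h0 : Supp (A' ∪ F') (∑ v ∈ good s A' F', hv s v) := Supp.sum fun v hv => by
    refine (supp_hv s v).mono ?_
    rcases (mem_filter.1 hv).2 with h | h
    exacts [h.trans subset_union_left, h.trans subset_union_right]
  obtain ⟨a, ha⟩ := h0.exists_lift
  obtain ⟨b, hb⟩ := h.exists_lift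
  rw [flt, ← ha, ← hb, ← map_iter]
  exact supp_lift _ _

lemma xor_false_imp {a b : Bool} (h : false = xor a b) : a = b := by
  cases a <;> cases b <;> simp_all

/-- the filter lemma in the doubled system -/
theorem doubled [Nonempty (Fin q)] (s : Sys q R J Δ Λ) (hJ : 0 < J) (hΔ : 0 < Δ)
    {A F A' F' Z : Finset Λ} {w : ℕ} (hA : ∀ x ∈ A, ball s x w ⊆ A') (hF : ∀ x ∈ F, ball s x w ⊆ F')
    (hZA : ∀ x ∈ A', ∀ y ∈ A', x ∈ Z ↔ y ∈ Z) (hZF : ∀ x ∈ F', ∀ y ∈ F', x ∈ Z ↔ y ∈ Z)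
    (e : Bool → Λ ↪ Bool × Λ) (he : ∀ b x, e b x = (xor b (decide (x ∈ Z)), x))
    (s0 : Λ ↪ Bool × Λ) (hs0 : ∀ x, s0 x = (false, x))
    {ψ : Q.Vec (Cfg fun _ : Bool × Λ => Fin q)} (h1 : ‖ψ‖ = 1)
    (hψ : pj ψ = emb (e false) (pj s.Ω) * emb (e true) (pj s.Ω))
    {O : Q.Op fun _ : Λ => Fin q} (hO : Supp (A ∪ F) O) (hn : ‖O‖ ≤ 1) {w' N : ℕ} {T : ℝ}
    (hT : 0 < T) (hw : w' + 1 ≤ w / (2 * R + 1))
    (hN : Real.exp 2 * (2 * ((4 * R + 1) ^ 2 : ℕ) * gJ R J * (N * T)) ≤ w') :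
    ‖ap (emb (d := fun _ => Fin q) s0 (flt s A' F' T N O)) ψ -
      ⟪ψ, ap (emb (d := fun _ => Fin q) s0 O) ψ⟫_ℂ • ψ‖ ≤
      2 * (2 / (T * Δ)) ^ N + 2 * ((A ∪ F)ᶜ).card * ((w' + 1 : ℝ) ^ 2 * Real.exp (-w')) := by
  classical
  have hRw : R ≤ w := by
    have : 0 < w / (2 * R + 1) := by omega
    have := (Nat.div_pos_iff.1 this).2
    omega
  set O' : Q.Op fun _ : Bool × Λ => Fin q := emb (d := fun _ => Fin q) s0 O with hO'
  let h : Bool × Λ → Q.Op fun _ : Bool × Λ => Fin q :=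
    fun j => emb (d := fun _ => Fin q) (e j.1) (hv s j.2)
  let sp : Bool × Λ → Finset (Bool × Λ) := fun j => (ball s j.2 R).map (e j.1)
  have hsp : ∀ j, Supp (sp j) (h j) := fun j => (supp_hv s j.2).emb _
  have msp : ∀ j p, p ∈ sp j ↔ p.2 ∈ ball s j.2 R ∧ p.1 = xor j.1 (decide (p.2 ∈ Z)) := by
    rintro j ⟨b, x⟩
    simp only [sp, mem_map, he, Prod.mk.injEq]
    exact ⟨by rintro ⟨y, hy, rfl, rfl⟩; exact ⟨hy, rfl⟩, fun h => ⟨x, h.1, h.2.symm, rfl⟩⟩
  have ms0 : ∀ (Y : Finset Λ) p, p ∈ Y.map s0 ↔ p.2 ∈ Y ∧ p.1 = false := by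
    rintro Y ⟨b, x⟩
    simp only [mem_map, hs0, Prod.mk.injEq]
    exact ⟨by rintro ⟨y, hy, rfl, rfl⟩; exact ⟨hy, rfl⟩, fun h => ⟨x, h.1, h.2.symm, rfl⟩⟩
  have hsO : Supp ((A ∪ F).map s0) O' := hO.emb _
  have hsub : A ∪ F ⊆ A' ∪ F' := union_subset_union (fun x hx => hA x hx (mem_ball_self _ _ _))
    fun x hx => hF x hx (mem_ball_self _ _ _)
  let T₀ : Finset (Bool × Λ) := univ.filter fun j => j.2 ∈ good s A' F' ∧ j.1 = decide (j.2 ∈ Z)
  let V : Finset (Bool × Λ) := univ.filter fun j => j ∉ T₀ ∧ ¬ Disjoint (sp j) ((A' ∪ F').map s0)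
  have hgood : ∀ v ∈ good s A' F', ∀ x ∈ ball s v R, x ∈ A' ∪ F' ∧ (x ∈ Z ↔ v ∈ Z) := by
    intro v hv x hx
    rcases (mem_filter.1 hv).2 with h | h
    · exact ⟨mem_union_left _ (h hx), hZA _ (h hx) _ (h (mem_ball_self _ _ _))⟩
    · exact ⟨mem_union_right _ (h hx), hZF _ (h hx) _ (h (mem_ball_self _ _ _))⟩
  have hnear : ∀ x ∈ A ∪ F, ∀ v, x ∈ ball s v (w - R) → v ∈ good s A' F' ∧ (x ∈ Z ↔ v ∈ Z) := by
    intro x hx v hv
    have h2 : ball s v R ⊆ ball s x w := ball_sub_ball (ball_symm hv) (by omega)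
    rcases mem_union.1 hx with hx | hx
    · exact ⟨mem_filter.2 ⟨mem_univ _, Or.inl (h2.trans (hA x hx))⟩,
        hZA _ (hA x hx (mem_ball_self _ _ _)) _ (hA x hx (h2 (mem_ball_self _ _ _)))⟩
    · exact ⟨mem_filter.2 ⟨mem_univ _, Or.inr (h2.trans (hF x hx))⟩,
        hZF _ (hF x hx (mem_ball_self _ _ _)) _ (hF x hx (h2 (mem_ball_self _ _ _)))⟩
  have hcomm : ∀ a b, Commute (emb (d := fun _ => Fin q) (e false) a)
      (emb (d := fun _ => Fin q) (e true) b) := fun a b =>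
    (supp_emb _ a).commute (supp_emb _ b) (by
      rw [disjoint_left]
      intro p hp hp'
      obtain ⟨x, rfl⟩ := mem_rg.1 hp
      obtain ⟨y, hy⟩ := mem_rg.1 hp'
      rw [he, he, Prod.mk.injEq] at hy
      obtain ⟨hy, rfl⟩ := hy
      simp at hy)
  have hgap := gap_double (gap_sys s) hΔ.le (emb (d := fun _ => Fin q) (e false))
    (emb (d := fun _ => Fin q) (e true)) hcomm (fun a ha => emb_posSemidef _ ha)
    (fun a ha => emb_posSemidef _ ha) h1 hψ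
  have hsum : ∑ j, h j = emb (d := fun _ => Fin q) (e false) (ham s) +
      emb (d := fun _ => Fin q) (e true) (ham s) := by
    rw [Fintype.sum_prod_type, Fintype.sum_bool, ← sum_hv, map_sum, map_sum, add_comm]
  have hsum0 : ∑ j ∈ T₀, h j = emb (d := fun _ => Fin q) s0 (∑ v ∈ good s A' F', hv s v) := by
    rw [map_sum]
    refine Finset.sum_nbij' (fun j => j.2) (fun v => (decide (v ∈ Z), v))
      (fun j hj => (mem_filter.1 hj).2.1) (fun v hv => mem_filter.2 ⟨mem_univ _, hv, rfl⟩)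
      (fun j hj => Prod.ext (mem_filter.1 hj).2.2.symm rfl) (fun _ _ => rfl) fun j hj => ?_
    obtain ⟨hj, hb⟩ := (mem_filter.1 hj).2
    refine emb_congr (fun x hx => ?_) (supp_hv s j.2)
    rw [he, hs0, hb]
    simp [(hgood _ hj x hx).2]
  have hV : V.card ≤ 2 * ((A ∪ F)ᶜ).card := by
    have : V ⊆ (univ : Finset Bool) ×ˢ (A ∪ F)ᶜ := by
      intro j hj
      obtain ⟨hj, hd⟩ := (mem_filter.1 hj).2
      refine mem_product.2 ⟨mem_univ _, mem_compl.2 fun hv => hd ?_⟩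
      have hg := (hnear _ hv _ (mem_ball_self _ _ _)).1
      rw [disjoint_left]
      intro p hp hp'
      obtain ⟨hp, hb⟩ := (msp j p).1 hp
      rw [((ms0 _ p).1 hp').2] at hb
      refine hj (mem_filter.2 ⟨mem_univ _, hg, ?_⟩)
      rw [← decide_eq_decide.2 (hgood _ hg _ hp).2]
      exact xor_false_imp hb
    simpa using card_le_card this
  let Zb : Bool → Finset Λ := fun b => (A ∪ F).filter fun x => decide (x ∈ Z) = b
  have hloc := loc _ (Bool × Λ) h (gJ R J) (fun j => {j.1} ×ˢ ball s j.2 (2 * R)) ((4 * R + 1) ^ 2)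
    (fun j => hop s (Zb j.1) (w - R) j.2) O' T₀ V w' N T
    (fun j => emb_isHermitian _ (hv_herm s _)) (fun j => (norm_emb_le _ _).trans (norm_hv_le s _))
    (gJ_pos R hJ) (Nat.one_le_pow _ _ (Nat.succ_pos _))
    (fun j => by simpa using card_ball_two s j.2) ?_ ?_ ?_ ?_ ?_ hT hN
  · have hgf := (gf _ _ _ _ _ T hgap hΔ hT O' N).2
    have hO1 : ‖O'‖ ≤ 1 := (norm_emb_le _ _).trans hn
    rw [hsum, hsum0, hO', ← map_iter, ← hO'] at hloc
    set X := (Av (emb (d := fun _ => Fin q) (e false) (ham s) +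
      emb (d := fun _ => Fin q) (e true) (ham s)) T)^[N] O'
    have b1 : ‖ap O' ψ - ⟪ψ, ap O' ψ⟫_ℂ • ψ‖ ≤ 2 := by
      have b2 : ‖ap O' ψ‖ ≤ 1 := (norm_ap_le _ _).trans (by rw [h1, mul_one]; exact hO1)
      have b3 := norm_inner_ap_le O' ψ ψ
      refine (norm_sub_le _ _).trans ?_
      rw [norm_smul, h1] at *
      linarith
    have b4 : ‖ap (emb (d := fun _ => Fin q) s0 (flt s A' F' T N O)) ψ - ap X ψ‖ ≤
        2 * ((A ∪ F)ᶜ).card * ((w' + 1 : ℝ) ^ 2 * Real.exp (-w')) := by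
      rw [norm_sub_rev, ← ap_sub]
      refine (norm_ap_le _ _).trans ?_
      rw [h1, mul_one]
      refine hloc.trans (mul_le_mul_of_nonneg_right ?_ (by positivity))
      have : (V.card : ℝ) ≤ 2 * ((A ∪ F)ᶜ).card := by exact_mod_cast hV
      nlinarith [norm_nonneg O', Nat.cast_nonneg (α := ℝ) V.card]
    have b5 := hgf.trans (mul_le_mul_of_nonneg_left b1 (by positivity))
    have := norm_sub_le_norm_sub_add_norm_sub
      (ap (emb (d := fun _ => Fin q) s0 (flt s A' F' T N O)) ψ) (ap X ψ) (⟪ψ, ap O' ψ⟫_ℂ • ψ)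
    linarith
  · rintro ⟨b, v⟩ ⟨b', v'⟩ hk
    by_cases hb : b' = b
    · subst hb
      have : v' ∉ ball s v (2 * R) := by simpa using hk
      simp only [h, ← map_mul, hv_comm s this]
    · cases b <;> cases b'
      exacts [absurd rfl hb, (hcomm _ _).eq.symm, (hcomm _ _).eq, absurd rfl hb]
  · rintro ⟨b, v⟩ ⟨b', v'⟩ hk
    obtain ⟨hk', rfl⟩ : v' ∈ ball s v (2 * R) ∧ b = b' := by simpa using hk
    exact hop_lip s _ _ hk'
  · intro j hj
    refine ((hsp j).commute hsO ?_).eq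
    rw [disjoint_left]
    intro p hp hp'
    obtain ⟨hp, hb⟩ := (msp j p).1 hp
    obtain ⟨hp', hb'⟩ := (ms0 _ p).1 hp'
    exact disjoint_left.1 (hop_pos hj) hp (mem_filter.2 ⟨hp', (xor_false_imp (hb'.symm.trans hb)).symm⟩)
  · intro j hj hj'
    have hd : Disjoint (sp j) ((A' ∪ F').map s0) := by
      by_contra hd
      exact hj' (mem_filter.2 ⟨mem_univ _, hj, hd⟩)
    refine ⟨((hsp j).commute hsO (hd.mono_right (map_subset_map.2 hsub))).eq, fun k hk =>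
      ((hsp j).commute (hsp k) (hd.mono_right fun p hp => ?_)).eq⟩
    obtain ⟨hk, hb⟩ := (mem_filter.1 hk).2
    obtain ⟨hp, hb'⟩ := (msp k p).1 hp
    have := hgood _ hk _ hp
    refine (ms0 _ p).2 ⟨this.1, ?_⟩
    rw [hb', hb]
    simp [this.2]
  · intro j hj
    have hd : Disjoint (ball s j.2 (w - R)) (Zb j.1) := by
      rw [disjoint_left]
      intro x hx hx'
      obtain ⟨hx', hb⟩ := mem_filter.1 hx'
      have := hnear x hx' _ hx
      exact (mem_filter.1 hj).2.1 (mem_filter.2 ⟨mem_univ _, this.1, by rw [← hb]; simp [this.2]⟩)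
    have := le_hop hd le_rfl
    rw [Nat.sub_add_cancel hRw] at this
    exact hw.trans this

end Crest.Agent.N336.A.Amp
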