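import Crest.Agent.N336.A.Defs

/-!
# Row 336, item 1, abstract part (helper37)

* `Av_iter_mem` : the iterated time average lies in every closed convex set containing the orbit
* `AvL`, `Av_iter_sub`, `Av_iter_sum`, `Av_iter_herm`, `norm_Av_iter_le`, `Av_iter_self`,
  `norm_br_Av_iter`, `norm_br_tau_le_of_deriv`
* `abs_lower`, `abs_upper` : one term `|A'|`;  `gap_pert` : the perturbed gap
-/

set_option autoImplicit false
set_option linter.unusedSectionVars false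

open Matrix Finset
open scoped ComplexOrder MatrixOrder Matrix.Norms.L2Operator InnerProductSpace

namespace Crest.Agent.N336.A.FF

open Crest.Agent.N336.Q
open Crest.Agent.R150.LR375

variable {n : Type} [Fintype n] [DecidableEq n]

/-! ### time averages -/

lemma hasDerivAt_tau (H X : Matrix n n ℂ) (s : ℝ) :
    HasDerivAt (fun s => tau H s X) (tau H s (Complex.I • br H X)) s := by
  have h := ((U_deriv H s).mul_const X).mul (U_deriv_neg H s)
  refine h.congr_deriv ?_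
  have h2 : U H (-s) * H = H * U H (-s) := U_comm rfl _
  simp only [tau, br, mul_smul_comm, smul_mul_assoc, h2, mul_neg, Matrix.mul_assoc,
    sub_eq_add_neg, smul_add, smul_neg, Matrix.mul_add, Matrix.add_mul, neg_mul]

lemma continuous_tau (H X : Matrix n n ℂ) : Continuous fun s => tau H s X :=
  continuous_iff_continuousAt.2 fun s => (hasDerivAt_tau H X s).continuousAt

lemma tau_tau (H X : Matrix n n ℂ) (s u : ℝ) : tau H s (tau H u X) = tau H (s + u) X := by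
  simp only [tau]
  rw [neg_add_rev, U_add, U_add]
  simp only [Matrix.mul_assoc]

/-- the evolution as a linear map -/
noncomputable def tauL (H : Matrix n n ℂ) (s : ℝ) : Matrix n n ℂ →L[ℂ] Matrix n n ℂ :=
  ContinuousLinearMap.mulLeftRight ℂ _ (U H s) (U H (-s))

lemma tauL_apply (H X : Matrix n n ℂ) (s : ℝ) : tauL H s X = tau H s X := rfl

lemma tau_smul (H X : Matrix n n ℂ) (s : ℝ) (c : ℂ) : tau H s (c • X) = c • tau H s X :=
  map_smul (tauL H s) c X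

lemma tau_self (H : Matrix n n ℂ) (s : ℝ) : tau H s H = H := by
  rw [tau, U_comm rfl, Matrix.mul_assoc, U_mul_neg, Matrix.mul_one]

lemma tau_herm {H X : Matrix n n ℂ} (hH : H.IsHermitian) (hX : X.IsHermitian) (s : ℝ) :
    (tau H s X).IsHermitian := by
  have h := U_star hH.isSelfAdjoint s
  rw [tau, ← h]
  exact isHermitian_mul_mul_conjTranspose _ hX

lemma tau_Av (H X : Matrix n n ℂ) (T s : ℝ) :
    tau H s (Av H T X) = ((T⁻¹ : ℝ) : ℂ) • ∫ u in (0 : ℝ)..T, tau H (s + u) X := by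
  rw [Av, tau_smul, ← tauL_apply, ← (tauL H s).intervalIntegral_comp_comm
    ((continuous_tau H X).intervalIntegrable _ _)]
  simp only [tauL_apply, tau_tau]

lemma avg_mem {S : Set (Matrix n n ℂ)} (hS : Convex ℝ S) (hc : IsClosed S)
    {f : ℝ → Matrix n n ℂ} (hf : Continuous f) {T : ℝ} (hT : 0 < T)
    (h : ∀ u, 0 ≤ u → u ≤ T → f u ∈ S) : ((T⁻¹ : ℝ) : ℂ) • ∫ u in (0 : ℝ)..T, f u ∈ S := by
  have h1 := interval_average_eq f 0 T
  rw [sub_zero] at h1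
  rw [Complex.coe_smul, ← h1, Set.uIoc_of_le hT.le]
  refine hS.set_average_mem hc (by simpa using hT) (by simp) ?_
    (hf.integrableOn_Icc.mono_set Set.Ioc_subset_Icc_self)
  exact (MeasureTheory.ae_restrict_mem measurableSet_Ioc).mono fun u hu => h u hu.1.le hu.2

/-- the iterated average lies in every closed convex set containing the orbit -/
theorem Av_iter_mem (H : Matrix n n ℂ) {T : ℝ} (hT : 0 < T) {S : Set (Matrix n n ℂ)}
    (hS : Convex ℝ S) (hc : IsClosed S) (N : ℕ) : ∀ X : Matrix n n ℂ,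
    (∀ s, 0 ≤ s → s ≤ N * T → tau H s X ∈ S) → (Av H T)^[N] X ∈ S := by
  induction N with
  | zero => intro X h; simpa [tau_zero] using h 0 le_rfl (by simp)
  | succ N ih =>
    intro X h
    rw [Function.iterate_succ_apply]
    refine ih _ fun s h0 hs => ?_
    rw [tau_Av]
    refine avg_mem (f := fun u => tau H (s + u) X) hS hc
      ((continuous_tau H X).comp (continuous_const.add continuous_id)) hT
      fun u hu0 hu => h (s + u) (by linarith) ?_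
    push_cast
    linarith

/-- the average as a linear map -/
noncomputable def AvL (H : Matrix n n ℂ) (T : ℝ) : Matrix n n ℂ →ₗ[ℂ] Matrix n n ℂ where
  toFun := Av H T
  map_add' X Y := by
    simp only [Av, ← smul_add]
    rw [← intervalIntegral.integral_add ((continuous_tau H X).intervalIntegrable _ _)
      ((continuous_tau H Y).intervalIntegrable _ _)]
    simp only [← tauL_apply, map_add]
  map_smul' c X := by
    simp only [Av, tau_smul, intervalIntegral.integral_smul, RingHom.id_apply]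
    rw [smul_comm]

lemma Av_iter_eq (H : Matrix n n ℂ) (T : ℝ) (N : ℕ) (X : Matrix n n ℂ) :
    (Av H T)^[N] X = (AvL H T ^ N) X := (Module.End.pow_apply (AvL H T) N X).symm

lemma Av_iter_sub (H : Matrix n n ℂ) (T : ℝ) (N : ℕ) (X Y : Matrix n n ℂ) :
    (Av H T)^[N] (X - Y) = (Av H T)^[N] X - (Av H T)^[N] Y := by
  simp only [Av_iter_eq, map_sub]

lemma Av_iter_sum {K : Type*} (H : Matrix n n ℂ) (T : ℝ) (N : ℕ) (I : Finset K)
    (X : K → Matrix n n ℂ) : (Av H T)^[N] (∑ k ∈ I, X k) = ∑ k ∈ I, (Av H T)^[N] (X k) := by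
  simp only [Av_iter_eq, map_sum]

lemma Av_iter_self (H : Matrix n n ℂ) {T : ℝ} (hT : 0 < T) (N : ℕ) : (Av H T)^[N] H = H :=
  Av_iter_mem H hT (convex_singleton H) isClosed_singleton N H fun s _ _ => tau_self H s

lemma norm_Av_iter_le {H : Matrix n n ℂ} (hH : H.IsHermitian) {T : ℝ} (hT : 0 < T) (N : ℕ)
    (X : Matrix n n ℂ) : ‖(Av H T)^[N] X‖ ≤ ‖X‖ :=
  mem_closedBall_zero_iff.1 (Av_iter_mem H hT (convex_closedBall 0 ‖X‖) Metric.isClosed_closedBall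
    N X fun s _ _ => mem_closedBall_zero_iff.2 (norm_tau hH.isSelfAdjoint s X).le)

lemma Av_iter_herm {H X : Matrix n n ℂ} (hH : H.IsHermitian) (hX : X.IsHermitian) {T : ℝ}
    (hT : 0 < T) (N : ℕ) : ((Av H T)^[N] X).IsHermitian := by
  refine Av_iter_mem H hT (S := {Y | Y.IsHermitian}) (fun a ha b hb x y _ _ _ => ?_)
    (isClosed_eq continuous_id.matrix_conjTranspose continuous_id) N X
    fun s _ _ => tau_herm hH hX s
  exact (ha.smul (.all x)).add (hb.smul (.all y))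

/-- the commutator with a fixed matrix -/
noncomputable def brL (B : Matrix n n ℂ) : Matrix n n ℂ →L[ℂ] Matrix n n ℂ :=
  (ContinuousLinearMap.mul ℂ _).flip B - ContinuousLinearMap.mul ℂ _ B

lemma brL_apply (B X : Matrix n n ℂ) : brL B X = br X B := rfl

lemma norm_br_Av_iter (H : Matrix n n ℂ) {T : ℝ} (hT : 0 < T) (N : ℕ) {X B : Matrix n n ℂ}
    {k : ℝ} (h : ∀ s, 0 ≤ s → s ≤ N * T → ‖br (tau H s X) B‖ ≤ k) :
    ‖br ((Av H T)^[N] X) B‖ ≤ k :=
  mem_closedBall_zero_iff.1 (Av_iter_mem H hT (S := brL B ⁻¹' Metric.closedBall 0 k)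
    ((convex_closedBall 0 k).linear_preimage ((brL B).toLinearMap.restrictScalars ℝ))
    (Metric.isClosed_closedBall.preimage (brL B).continuous) N X
    fun s h0 hs => mem_closedBall_zero_iff.2 (h s h0 hs))

/-- integrate the derivative of `s ↦ [tau s X, B]` -/
lemma norm_br_tau_le_of_deriv {H X B : Matrix n n ℂ} (h0 : X * B = B * X) {t k : ℝ}
    (h : ∀ s, 0 ≤ s → s ≤ t → ‖br (tau H s (br H X)) B‖ ≤ k) {s : ℝ} (hs0 : 0 ≤ s) (hs : s ≤ t) :
    ‖br (tau H s X) B‖ ≤ k * s := by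
  have h1 := norm_image_sub_le_of_norm_deriv_le_segment' (a := 0) (b := t) (C := k)
    (f := fun s => brL B (tau H s X)) (f' := fun s => brL B (tau H s (Complex.I • br H X)))
    (fun x _ => (((brL B).restrictScalars ℝ).hasFDerivAt.comp_hasDerivAt x
      (hasDerivAt_tau H X x)).hasDerivWithinAt)
    (fun x hx => by
      rw [tau_smul, map_smul, norm_smul, Complex.norm_I, one_mul]
      exact h x hx.1 hx.2.le) s ⟨hs0, hs⟩
  simpa only [brL_apply, tau_zero, br_eq_zero h0, sub_zero] using h1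

/-! ### one term -/

lemma abs_lower {A A' : Matrix n n ℂ} (hA' : A'.IsHermitian) {δ : ℝ} (h : ‖A - A'‖ ≤ δ)
    (ψ : Q.Vec n) : (⟪ψ, ap A ψ⟫_ℂ).re - δ * ‖ψ‖ ^ 2 ≤ (⟪ψ, ap (fr abs A') ψ⟫_ℂ).re := by
  have h1 : (⟪ψ, ap A' ψ⟫_ℂ).re ≤ (⟪ψ, ap (fr abs A') ψ⟫_ℂ).re := by
    conv_lhs => rw [← fr_id hA']
    exact re_inner_ap_mono (fr_le_fr fun i => le_abs_self _) ψ
  have h2 := (Complex.re_le_norm _).trans (norm_inner_ap_le (A - A') ψ ψ)
  rw [ap_sub, inner_sub_right, Complex.sub_re] at h2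
  have h3 : ‖A - A'‖ * ‖ψ‖ * ‖ψ‖ ≤ δ * ‖ψ‖ * ‖ψ‖ := by gcongr
  nlinarith

lemma norm_ap_abs {A : Matrix n n ℂ} (hA : A.IsHermitian) (ψ : Q.Vec n) :
    ‖ap (fr abs A) ψ‖ = ‖ap A ψ‖ := by
  refine (sq_eq_sq₀ (norm_nonneg _) (norm_nonneg _)).1 ?_
  conv_rhs => rw [← fc_id hA]
  simp only [norm_ap_fc_sq, Complex.norm_real, Real.norm_eq_abs, abs_abs]

lemma abs_upper {A A' : Matrix n n ℂ} (hA' : A'.IsHermitian) {δ : ℝ} (h : ‖A - A'‖ ≤ δ)
    {Ω : Q.Vec n} (hΩ : ‖Ω‖ = 1) (h' : ‖ap A Ω‖ ≤ δ) :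
    (⟪Ω, ap (fr abs A') Ω⟫_ℂ).re ≤ 2 * δ := by
  have h1 := (Complex.re_le_norm _).trans (norm_inner_le_norm (𝕜 := ℂ) Ω (ap (fr abs A') Ω))
  rw [hΩ, one_mul, norm_ap_abs hA'] at h1
  have h2 : ap A' Ω = ap A Ω - ap (A - A') Ω := by rw [ap_sub, sub_sub_cancel]
  have h3 := norm_ap_le (A - A') Ω
  rw [hΩ, mul_one] at h3
  have h4 := norm_sub_le (ap A Ω) (ap (A - A') Ω)
  rw [← h2] at h4
  linarith

lemma norm_abs_le {A : Matrix n n ℂ} (hA : A.IsHermitian) : ‖fr abs A‖ ≤ ‖A‖ :=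
  norm_fc_le (norm_nonneg _) fun i => by
    simpa only [Complex.norm_real, Real.norm_eq_abs, abs_abs] using abs_ev_le hA i

lemma abs_posSemidef (A : Matrix n n ℂ) : (fr abs A).PosSemidef :=
  fr_posSemidef fun _ => abs_nonneg _

/-! ### the perturbed gap -/

theorem gap_pert {G : Matrix n n ℂ} (hG : G.PosSemidef) {Ω : Q.Vec n} (hΩ : ‖Ω‖ = 1) {Δ δ : ℝ}
    (hΔ : 0 < Δ) (hδ : 18 * δ ≤ Δ)
    (h1 : ∀ ψ : Q.Vec n,
      Δ * (‖ψ‖ ^ 2 - ‖⟪Ω, ψ⟫_ℂ‖ ^ 2) - δ * ‖ψ‖ ^ 2 ≤ (⟪ψ, ap G ψ⟫_ℂ).re)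
    (h2 : (⟪Ω, ap G Ω⟫_ℂ).re ≤ 2 * δ) :
    ∃ (Ω' : Q.Vec n) (E' : ℝ), Gap G Ω' E' (Δ / 2) ∧ 0 ≤ E' ∧ E' ≤ 2 * δ ∧
      Δ * ‖Ω' - Ω‖ ^ 2 ≤ 6 * δ := by
  have hne : (univ : Finset n).Nonempty := by
    rcases isEmpty_or_nonempty n with h | h
    · rw [Subsingleton.elim Ω 0, norm_zero] at hΩ; exact absurd hΩ zero_ne_one
    · exact univ_nonempty
  obtain ⟨i₀, -, hmin⟩ := exists_min_image univ (ev G) hne
  have hq : ∀ ψ : Q.Vec n, (⟪ψ, ap G ψ⟫_ℂ).re = ∑ i, ev G i * ‖⟪evec G i, ψ⟫_ℂ‖ ^ 2 := by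
    intro ψ
    conv_lhs => rw [← fr_id hG.1]
    exact re_inner_fr _ _ _
  have hE : ev G i₀ ≤ 2 * δ := by
    refine le_trans ?_ h2
    rw [hq, ← mul_one (ev G i₀), ← one_pow 2, ← hΩ, ← sum_sq_inner_evec G, mul_sum]
    exact sum_le_sum fun i _ => mul_le_mul_of_nonneg_right (hmin i (mem_univ i)) (sq_nonneg _)
  obtain ⟨z, hz1, hz⟩ := Complex.exists_norm_eq_mul_self ⟪Ω, evec G i₀⟫_ℂ
  set a := ‖⟪Ω, evec G i₀⟫_ℂ‖ with ha
  have ha1 : a ≤ 1 := by
    have := norm_inner_le_norm (𝕜 := ℂ) Ω (evec G i₀)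
    rwa [hΩ, norm_evec, one_mul] at this
  have ha0 : 0 ≤ a := norm_nonneg _
  have h3 : Δ * (1 - a ^ 2) ≤ 3 * δ := by
    have := h1 (evec G i₀)
    rw [← ev_eq_re_inner hG.1, norm_evec] at this
    linarith
  have hn' : ‖z • evec G i₀‖ = 1 := by rw [norm_smul, hz1, norm_evec, one_mul]
  have h4 : Δ * ‖z • evec G i₀ - Ω‖ ^ 2 ≤ 6 * δ := by
    rw [norm_sub_rev, @norm_sub_sq ℂ, hΩ, hn', inner_smul_right, ← hz]
    have : Δ * (1 - a) ≤ Δ * (1 - a ^ 2) := by gcongr; nlinarith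
    simp only [RCLike.re_to_complex, Complex.ofReal_re]
    linarith
  refine ⟨z • evec G i₀, ev G i₀, ⟨hG.1, hn', ?_, fun ψ => ?_⟩, ev_nonneg hG i₀, hE, h4⟩
  · rw [map_smul, ap_evec hG.1, smul_comm]
  · have h5 : ∀ i, i ≠ i₀ → Δ / 2 ≤ ev G i - ev G i₀ := by
      intro i hi
      have h6 := h1 (evec G i)
      rw [← ev_eq_re_inner hG.1, norm_evec] at h6
      have h7 : ⟪Ω, evec G i⟫_ℂ = -⟪z • evec G i₀ - Ω, evec G i⟫_ℂ := by
        rw [inner_sub_left, inner_smul_left, inner_evec, if_neg hi.symm]; simp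
      have h8 : ‖⟪Ω, evec G i⟫_ℂ‖ ≤ ‖z • evec G i₀ - Ω‖ := by
        have := norm_inner_le_norm (𝕜 := ℂ) (z • evec G i₀ - Ω) (evec G i)
        rwa [norm_evec, mul_one, ← norm_neg, ← h7] at this
      have h9 : Δ * ‖⟪Ω, evec G i⟫_ℂ‖ ^ 2 ≤ Δ * ‖z • evec G i₀ - Ω‖ ^ 2 := by gcongr
      linarith
    have h10 : ‖⟪z • evec G i₀, ψ⟫_ℂ‖ = ‖⟪evec G i₀, ψ⟫_ℂ‖ := by
      rw [inner_smul_left, norm_mul, Complex.norm_conj, hz1, one_mul]
    rw [h10, hq, ← sum_sq_inner_evec G ψ, mul_sum, ← sum_sub_distrib,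
      ← add_sum_erase _ _ (mem_univ i₀), add_sub_cancel_left, mul_sum,
      ← add_sum_erase _ _ (mem_univ i₀), sub_self, zero_add]
    refine sum_le_sum fun i hi => ?_
    rw [← sub_mul]
    exact mul_le_mul_of_nonneg_right (h5 i (ne_of_mem_erase hi)) (sq_nonneg _)

end Crest.Agent.N336.A.FF
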