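import Crest.Agent.N336.A.Loc
import Crest.Agent.N336.A.FF2

/-!
# Row 336, item 1: `ff : FFStmt` (helper37)
-/

namespace Crest.Agent.N336.A

/-- item 1: replacement by positive local terms -/
theorem ff : FFStmt := FF.ff_of gf

end Crest.Agent.N336.A
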