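import Crest.Agent.N336.A.Defs

/-!
# Row 336: balls, grouped terms and the Lieb-Robinson bound for a `Sys` (helper37)

* `gap_sys`, ball API (`mem_ball`, `ball_symm`, `ball_trans`, `pos_near`, `card_ball_le`, ...)
* grouped terms `hv` : `sum_hv`, `hv_herm`, `supp_hv`, `norm_hv_le`, `hv_comm`
* the hop distance `hop` : `hop_lip`, `hop_pos`, `le_hop`
* `ball_sub_of_closed` (closed paths), `lrb_gen`, `lrb` (Lieb-Robinson, exponential form)
-/

set_option autoImplicit false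
set_option linter.unusedSectionVars false

open Matrix Finset
open scoped ComplexOrder MatrixOrder Matrix.Norms.L2Operator InnerProductSpace

namespace Crest.Agent.N336.A

open Crest.Agent.N336.Q Crest.MathPhysics.LatticeSpin
open Crest.Agent.R150.LR375 (tau br)

variable {q R : ℕ} {J Δ : ℝ} {Λ : Type} [Fintype Λ] [DecidableEq Λ]

/-! ### the terms -/

lemma h_supp (s : Sys q R J Δ Λ) (X : Finset Λ) : Supp X (s.h X) :=
  isSupportedOn_iff.1 (s.adm X).2.1

lemma h_herm (s : Sys q R J Δ Λ) (X : Finset Λ) : (s.h X).IsHermitian := (s.adm X).1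

lemma norm_h_le (s : Sys q R J Δ Λ) (X : Finset Λ) : ‖s.h X‖ ≤ J := (s.adm X).2.2.1

lemma J_nonneg (s : Sys q R J Δ Λ) : 0 ≤ J := (norm_nonneg _).trans (norm_h_le s ∅)

lemma h_empty (s : Sys q R J Δ Λ) : s.h ∅ = 0 := (s.adm ∅).2.2.2 fun h => by simpa using h.1

lemma ham_herm (s : Sys q R J Δ Λ) : (ham s).IsHermitian :=
  isSelfAdjoint_sum univ fun X _ => (h_herm s X).isSelfAdjoint

theorem gap_sys (s : Sys q R J Δ Λ) : Gap (ham s) s.Ω s.E Δ :=
  ⟨ham_herm s, s.gap.1, s.gap.2.1, s.gap.2.2⟩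

/-! ### balls -/

lemma mem_ball {s : Sys q R J Δ Λ} {v y : Λ} {r : ℕ} : y ∈ ball s v r ↔ s.G.edist v y ≤ r := by
  simp [ball]

lemma mem_ball_self (s : Sys q R J Δ Λ) (v : Λ) (r : ℕ) : v ∈ ball s v r := by
  simp [mem_ball]

lemma ball_symm {s : Sys q R J Δ Λ} {v y : Λ} {r : ℕ} (h : y ∈ ball s v r) : v ∈ ball s y r := by
  rw [mem_ball] at h ⊢; rwa [SimpleGraph.edist_comm]

lemma ball_comm {s : Sys q R J Δ Λ} {v y : Λ} {r : ℕ} : y ∈ ball s v r ↔ v ∈ ball s y r :=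
  ⟨ball_symm, ball_symm⟩

lemma ball_trans {s : Sys q R J Δ Λ} {v y z : Λ} {a b : ℕ} (h : y ∈ ball s v a)
    (h' : z ∈ ball s y b) : z ∈ ball s v (a + b) := by
  rw [mem_ball] at h h' ⊢
  push_cast
  exact SimpleGraph.edist_triangle.trans (add_le_add h h')

lemma ball_mono (s : Sys q R J Δ Λ) (v : Λ) {a b : ℕ} (h : a ≤ b) : ball s v a ⊆ ball s v b :=
  fun _ hy => mem_ball.2 ((mem_ball.1 hy).trans (by exact_mod_cast h))

lemma ball_sub_ball {s : Sys q R J Δ Λ} {v y : Λ} {a b c : ℕ} (h : y ∈ ball s v a)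
    (hc : a + b ≤ c) : ball s y b ⊆ ball s v c :=
  fun _ hz => ball_mono s v hc (ball_trans h hz)

lemma ball_zero (s : Sys q R J Δ Λ) (v : Λ) : ball s v 0 = {v} := by
  ext y; rw [mem_ball, mem_singleton, eq_comm]; simp

lemma mem_ball_one_of_adj {s : Sys q R J Δ Λ} {v y : Λ} (h : s.G.Adj v y) : y ∈ ball s v 1 := by
  rw [mem_ball, Nat.cast_one, SimpleGraph.edist_le_one_iff_adj_or_eq]; exact Or.inl h

/-- two balls which meet have close centers -/
lemma disjoint_ball {s : Sys q R J Δ Λ} {v y : Λ} {a b : ℕ} (h : y ∉ ball s v (a + b)) :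
    Disjoint (ball s v a) (ball s y b) :=
  disjoint_left.2 fun _ h1 h2 => h (ball_trans h1 (ball_symm h2))

lemma exists_walk_of_mem_ball {s : Sys q R J Δ Λ} {v y : Λ} {r : ℕ} (h : y ∈ ball s v r) :
    ∃ p : s.G.Walk v y, p.length ≤ r := by
  rw [mem_ball] at h
  obtain ⟨p, hp⟩ := SimpleGraph.exists_walk_of_edist_ne_top
    (ne_top_of_le_ne_top (ENat.natCast_ne_top r) h)
  exact ⟨p, by exact_mod_cast hp.le.trans h⟩

lemma mem_ball_of_walk {s : Sys q R J Δ Λ} {v y : Λ} {r : ℕ} (p : s.G.Walk v y)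
    (h : p.length ≤ r) : y ∈ ball s v r :=
  mem_ball.2 ((SimpleGraph.edist_le p).trans (by exact_mod_cast h))

lemma mem_ball_succ {s : Sys q R J Δ Λ} {v y : Λ} {r : ℕ} (h : y ∈ ball s v (r + 1)) :
    y = v ∨ ∃ c ∈ ball s v r, s.G.Adj c y := by
  obtain ⟨p, hp⟩ := exists_walk_of_mem_ball (ball_symm h)
  cases p with
  | nil => exact Or.inl rfl
  | cons hadj p =>
    refine Or.inr ⟨_, ball_symm (mem_ball_of_walk p ?_), hadj.symm⟩
    simpa using hp

lemma pos_walk (s : Sys q R J Δ Λ) {v y : Λ} (p : s.G.Walk v y) :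
    |(s.pos v).1 - (s.pos y).1| + |(s.pos v).2 - (s.pos y).2| ≤ p.length := by
  induction p with
  | nil => simp
  | @cons a b c hadj p ih =>
    have h1 := s.adj _ _ hadj
    have h2 := abs_sub_le (s.pos a).1 (s.pos b).1 (s.pos c).1
    have h3 := abs_sub_le (s.pos a).2 (s.pos b).2 (s.pos c).2
    rw [SimpleGraph.Walk.length_cons]
    push_cast
    linarith

/-- graph distance dominates the `ℓ¹` distance of the positions -/
lemma pos_near_l1 {s : Sys q R J Δ Λ} {v y : Λ} {r : ℕ} (h : y ∈ ball s v r) :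
    |(s.pos v).1 - (s.pos y).1| + |(s.pos v).2 - (s.pos y).2| ≤ r := by
  obtain ⟨p, hp⟩ := exists_walk_of_mem_ball h
  exact (pos_walk s p).trans (by exact_mod_cast hp)

lemma pos_near {s : Sys q R J Δ Λ} {v y : Λ} {r : ℕ} (h : y ∈ ball s v r) :
    |(s.pos v).1 - (s.pos y).1| ≤ r ∧ |(s.pos v).2 - (s.pos y).2| ≤ r := by
  have h1 := pos_near_l1 h
  have h2 := abs_nonneg ((s.pos v).1 - (s.pos y).1)
  have h3 := abs_nonneg ((s.pos v).2 - (s.pos y).2)
  constructor <;> linarith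

lemma card_ball_le (s : Sys q R J Δ Λ) (v : Λ) (r : ℕ) : (ball s v r).card ≤ (2 * r + 1) ^ 2 := by
  have h : (ball s v r).card ≤ ((Finset.Icc ((s.pos v).1 - r) ((s.pos v).1 + r)) ×ˢ
      (Finset.Icc ((s.pos v).2 - r) ((s.pos v).2 + r))).card := by
    refine card_le_card_of_injOn s.pos (fun y hy => ?_) s.inj.injOn
    obtain ⟨h1, h2⟩ := pos_near (mem_coe.1 hy)
    rw [abs_le] at h1 h2
    simp only [coe_product, coe_Icc, Set.mem_prod, Set.mem_Icc]
    omega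
  rw [card_product, Int.card_Icc, Int.card_Icc] at h
  have e1 : ((s.pos v).1 + r + 1 - ((s.pos v).1 - r)).toNat = 2 * r + 1 := by omega
  have e2 : ((s.pos v).2 + r + 1 - ((s.pos v).2 - r)).toNat = 2 * r + 1 := by omega
  rwa [e1, e2, ← sq] at h

lemma mem_nbhd {s : Sys q R J Δ Λ} {Z : Finset Λ} {r : ℕ} {y : Λ} :
    y ∈ nbhd s Z r ↔ ∃ v ∈ Z, y ∈ ball s v r := by
  simp [nbhd]

lemma ball_sub_nbhd {s : Sys q R J Δ Λ} {Z : Finset Λ} {v : Λ} (hv : v ∈ Z) (r : ℕ) :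
    ball s v r ⊆ nbhd s Z r := fun _ hy => mem_nbhd.2 ⟨v, hv, hy⟩

lemma sub_nbhd (s : Sys q R J Δ Λ) (Z : Finset Λ) (r : ℕ) : Z ⊆ nbhd s Z r :=
  fun v hv => ball_sub_nbhd hv r (mem_ball_self s v r)

lemma nbhd_mono (s : Sys q R J Δ Λ) {Z Z' : Finset Λ} (hZ : Z ⊆ Z') {a b : ℕ} (h : a ≤ b) :
    nbhd s Z a ⊆ nbhd s Z' b := fun _ hy => by
  obtain ⟨v, hv, hy⟩ := mem_nbhd.1 hy
  exact mem_nbhd.2 ⟨v, hZ hv, ball_mono s v h hy⟩

lemma card_nbhd_le (s : Sys q R J Δ Λ) (Z : Finset Λ) (r : ℕ) :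
    (nbhd s Z r).card ≤ Z.card * (2 * r + 1) ^ 2 :=
  card_biUnion_le_card_mul _ _ _ fun v _ => card_ball_le s v r

lemma notMem_nbhd_iff {s : Sys q R J Δ Λ} {Z : Finset Λ} {r : ℕ} {y : Λ} :
    y ∉ nbhd s Z r ↔ Disjoint (ball s y r) Z := by
  rw [mem_nbhd, disjoint_right]
  push Not
  exact forall₂_congr fun v _ => not_congr ball_comm

lemma sub_ball {s : Sys q R J Δ Λ} {X : Finset Λ} (h : s.h X ≠ 0) {v : Λ} (hv : v ∈ X) :
    X ⊆ ball s v R := by
  have := (s.adm X).2.2.2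
  by_contra hX
  refine h (this fun h2 => hX fun y hy => mem_ball.2 (h2.2 v hv y hy))

lemma nonempty_of_h_ne {s : Sys q R J Δ Λ} {X : Finset Λ} (h : s.h X ≠ 0) : X.Nonempty := by
  rw [nonempty_iff_ne_empty]; rintro rfl; exact h (h_empty s)

/-- closed paths: if no edge leaves `U` near the square, balls of radius `R` stay in `U` -/
theorem ball_sub_of_closed {s : Sys q R J Δ Λ} {U : Finset Λ} {x y : ℤ} {L : ℕ}
    (h : ∀ a b, s.G.Adj a b → a ∈ U → a ∈ box s (x - R) (y - R) (L + 2 * R) → b ∈ U)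
    {a : Λ} (ha : a ∈ U ∩ box s x y L) : ball s a R ⊆ U := by
  obtain ⟨haU, hab⟩ := mem_inter.1 ha
  suffices H : ∀ k ≤ R, ball s a k ⊆ U from H R le_rfl
  intro k
  induction k with
  | zero => intro _; rw [ball_zero]; simpa using haU
  | succ k ih =>
    intro hk b hb
    rcases mem_ball_succ hb with rfl | ⟨c, hc, hadj⟩
    · exact haU
    · refine h c b hadj (ih (by omega) hc) ?_
      obtain ⟨h1, h2⟩ := pos_near hc
      rw [abs_le] at h1 h2
      simp only [box, mem_filter, mem_univ, true_and] at hab ⊢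
      omega

/-! ### grouped terms -/

lemma sum_hv (s : Sys q R J Δ Λ) : ∑ v, hv s v = ham s := by
  unfold hv ham
  simp only [sum_filter]
  rw [sum_comm]
  refine sum_congr rfl fun X _ => ?_
  rw [← sum_filter, filter_mem_eq_inter, univ_inter, sum_const, ← Nat.cast_smul_eq_nsmul ℂ,
    smul_smul]
  rcases X.eq_empty_or_nonempty with rfl | hX
  · simp [h_empty]
  · have : (X.card : ℂ) ≠ 0 := by exact_mod_cast hX.card_pos.ne'
    rw [mul_inv_cancel₀ this, one_smul]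

lemma hv_herm (s : Sys q R J Δ Λ) (v : Λ) : (hv s v).IsHermitian := by
  refine isSelfAdjoint_sum _ fun X _ => ?_
  refine IsSelfAdjoint.smul ?_ (h_herm s X).isSelfAdjoint
  simp [IsSelfAdjoint]

lemma supp_hv (s : Sys q R J Δ Λ) (v : Λ) : Supp (ball s v R) (hv s v) := by
  refine Supp.sum fun X hX => Supp.smul _ ?_
  by_cases h : s.h X = 0
  · rw [h]; exact Supp.zero' _
  · exact (h_supp s X).mono (sub_ball h (mem_filter.1 hX).2)

lemma norm_hv_le (s : Sys q R J Δ Λ) (v : Λ) : ‖hv s v‖ ≤ gJ R J := by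
  have hJ := J_nonneg s
  have h1 : hv s v = ∑ X ∈ (univ.filter (fun X : Finset Λ => v ∈ X)).filter
      (fun X => X ⊆ ball s v R), ((X.card : ℂ))⁻¹ • s.h X := by
    unfold hv
    symm
    refine sum_filter_of_ne fun X hX hne => sub_ball (fun h0 => hne ?_) (mem_filter.1 hX).2
    rw [h0, smul_zero]
  rw [h1]
  refine (norm_sum_le _ _).trans ?_
  refine (sum_le_card_nsmul _ _ J fun X hX => ?_).trans ?_
  · have hv : v ∈ X := (mem_filter.1 (mem_filter.1 hX).1).2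
    have h2 : (1 : ℝ) ≤ X.card := by exact_mod_cast card_pos.2 ⟨v, hv⟩
    rw [norm_smul, norm_inv, Complex.norm_natCast]
    calc (X.card : ℝ)⁻¹ * ‖s.h X‖ ≤ 1 * J := by
          gcongr
          · exact inv_le_one_of_one_le₀ h2
          · exact norm_h_le s X
      _ = J := one_mul _
  · rw [nsmul_eq_mul, gJ]
    gcongr
    have h3 : ((univ.filter (fun X : Finset Λ => v ∈ X)).filter
        (fun X => X ⊆ ball s v R)).card ≤ 2 ^ ((2 * R + 1) ^ 2) := by
      refine (card_le_card (t := (ball s v R).powerset) fun X hX =>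
        mem_powerset.2 (mem_filter.1 hX).2).trans ?_
      rw [card_powerset]
      exact Nat.pow_le_pow_right two_pos (card_ball_le s v R)
    exact_mod_cast h3

lemma gJ_pos (R : ℕ) {J : ℝ} (hJ : 0 < J) : 0 < gJ R J := by unfold gJ; positivity

lemma gJ_nonneg (R : ℕ) {J : ℝ} (hJ : 0 ≤ J) : 0 ≤ gJ R J := by unfold gJ; positivity

/-- a grouped term commutes with everything supported away from its ball -/
lemma hv_comm_of_supp (s : Sys q R J Δ Λ) {k : Λ} {Z : Finset Λ} {B : Q.Op fun _ : Λ => Fin q}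
    (hB : Supp Z B) (h : Disjoint (ball s k R) Z) : hv s k * B = B * hv s k :=
  ((supp_hv s k).commute hB h).eq

lemma hv_comm_ball (s : Sys q R J Δ Λ) {v k : Λ} {a : ℕ} {X : Q.Op fun _ : Λ => Fin q}
    (hX : Supp (ball s v a) X) (h : k ∉ ball s v (a + R)) : hv s k * X = X * hv s k :=
  hv_comm_of_supp s hX (disjoint_ball h).symm

lemma hv_comm (s : Sys q R J Δ Λ) {j k : Λ} (h : k ∉ ball s j (2 * R)) :
    hv s k * hv s j = hv s j * hv s k :=
  hv_comm_ball s (supp_hv s j) (by rwa [← two_mul])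

lemma card_ball_two (s : Sys q R J Δ Λ) (j : Λ) : (ball s j (2 * R)).card ≤ (4 * R + 1) ^ 2 := by
  have := card_ball_le s j (2 * R)
  rwa [← mul_assoc] at this

/-! ### the hop distance -/

/-- distance from `v` to `Z`, capped at `cap` -/
noncomputable def dz (s : Sys q R J Δ Λ) (Z : Finset Λ) (cap : ℕ) (v : Λ) : ℕ :=
  (min (Z.inf fun z => s.G.edist v z) cap).toNat

lemma coe_dz (s : Sys q R J Δ Λ) (Z : Finset Λ) (cap : ℕ) (v : Λ) :
    (dz s Z cap v : ℕ∞) = min (Z.inf fun z => s.G.edist v z) cap :=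
  ENat.natCast_toNat (ne_top_of_le_ne_top (ENat.natCast_ne_top cap) (min_le_right _ _))

lemma le_dz_iff {s : Sys q R J Δ Λ} {Z : Finset Λ} {cap : ℕ} {v : Λ} {r : ℕ} :
    r ≤ dz s Z cap v ↔ (∀ z ∈ Z, (r : ℕ∞) ≤ s.G.edist v z) ∧ r ≤ cap := by
  rw [← ENat.natCast_le_natCast, coe_dz, le_min_iff, Finset.le_inf_iff, ENat.natCast_le_natCast]

lemma dz_le_cap (s : Sys q R J Δ Λ) (Z : Finset Λ) (cap : ℕ) (v : Λ) : dz s Z cap v ≤ cap :=
  (le_dz_iff.1 le_rfl).2

lemma lt_dz_iff {s : Sys q R J Δ Λ} {Z : Finset Λ} {cap : ℕ} {v : Λ} {r : ℕ} :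
    r < dz s Z cap v ↔ Disjoint (ball s v r) Z ∧ r < cap := by
  rw [← Nat.add_one_le_iff, le_dz_iff, disjoint_right, Nat.add_one_le_iff]
  refine and_congr_left' (forall₂_congr fun z _ => ?_)
  rw [mem_ball, not_le, Nat.cast_add, Nat.cast_one, ENat.add_one_le_iff (ENat.natCast_ne_top r)]

lemma le_dz {s : Sys q R J Δ Λ} {Z : Finset Λ} {cap : ℕ} {v : Λ} {r : ℕ}
    (h : Disjoint (ball s v r) Z) (hr : r ≤ cap) : r ≤ dz s Z cap v :=
  le_dz_iff.2 ⟨fun _ hz => (not_le.1 (mt mem_ball.2 (disjoint_right.1 h hz))).le, hr⟩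

lemma dz_lip {s : Sys q R J Δ Λ} (Z : Finset Λ) (cap : ℕ) {j k : Λ} {a : ℕ}
    (h : k ∈ ball s j a) : dz s Z cap j ≤ dz s Z cap k + a := by
  by_contra hlt
  obtain ⟨h1, h2⟩ := lt_dz_iff.1 (not_le.1 hlt)
  exact lt_irrefl _ (lt_dz_iff.2 ⟨h1.mono_left (ball_sub_ball h (add_comm _ _).le),
    by omega⟩ : dz s Z cap k < dz s Z cap k)

/-- the hop distance from `v` to `Z` -/
noncomputable def hop (s : Sys q R J Δ Λ) (Z : Finset Λ) (cap : ℕ) (v : Λ) : ℕ :=
  (dz s Z cap v + R) / (2 * R + 1)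

lemma hop_lip (s : Sys q R J Δ Λ) (Z : Finset Λ) (cap : ℕ) {j k : Λ}
    (h : k ∈ ball s j (2 * R)) : hop s Z cap j ≤ hop s Z cap k + 1 := by
  have h1 := dz_lip Z cap h
  unfold hop
  rw [← Nat.add_div_right _ (by omega : 0 < 2 * R + 1)]
  exact Nat.div_le_div_right (by omega)

lemma hop_pos {s : Sys q R J Δ Λ} {Z : Finset Λ} {cap : ℕ} {j : Λ} (h : 0 < hop s Z cap j) :
    Disjoint (ball s j R) Z := by
  have h1 := (Nat.div_pos_iff.1 h).2
  exact (lt_dz_iff.1 (by omega : R < dz s Z cap j)).1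

lemma le_hop {s : Sys q R J Δ Λ} {Z : Finset Λ} {cap : ℕ} {v : Λ} {r : ℕ}
    (h : Disjoint (ball s v r) Z) (hr : r ≤ cap) : (r + R) / (2 * R + 1) ≤ hop s Z cap v :=
  Nat.div_le_div_right (Nat.add_le_add_right (le_dz h hr) R)

lemma hop_comm (s : Sys q R J Δ Λ) {Z : Finset Λ} {cap : ℕ} {B : Q.Op fun _ : Λ => Fin q}
    (hB : Supp Z B) {j : Λ} (h : 0 < hop s Z cap j) : hv s j * B = B * hv s j :=
  hv_comm_of_supp s hB (hop_pos h)

/-! ### Lieb-Robinson -/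

/-- exponential form of the tail -/
lemma pow_div_factorial_le {x : ℝ} {n : ℕ} (hx : 0 ≤ x) (h : Real.exp 2 * x ≤ n) :
    x ^ n / n.factorial ≤ Real.exp (-n) := by
  rcases Nat.eq_zero_or_pos n with hn | hn
  · subst hn
    simp
  · have hn' : (0 : ℝ) < n := by exact_mod_cast hn
    have h1 : (n : ℝ) ^ n / n.factorial ≤ Real.exp n := Real.pow_div_factorial_le_exp _ hn'.le n
    have h2 : x / n ≤ Real.exp (-2) := by
      rw [div_le_iff₀ hn', Real.exp_neg, ← div_eq_inv_mul, le_div_iff₀ (Real.exp_pos 2), mul_comm]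
      exact h
    have h3 : (x / n) ^ n ≤ Real.exp (-2) ^ n := pow_le_pow_left₀ (by positivity) h2 n
    calc x ^ n / n.factorial = (x / n) ^ n * ((n : ℝ) ^ n / n.factorial) := by
          rw [div_pow]
          field_simp
      _ ≤ Real.exp (-2) ^ n * Real.exp n := by gcongr
      _ = Real.exp (-n) := by
          rw [← Real.exp_nat_mul, ← Real.exp_add]
          congr 1
          ring

/-- Lieb-Robinson bound, factorial form -/
theorem lrb_fact (s : Sys q R J Δ Λ) {v : Λ} {a r : ℕ} {X B : Q.Op fun _ : Λ => Fin q}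
    {Z : Finset Λ} (hX : Supp (ball s v a) X) (hB : Supp Z B) (hd : Disjoint (ball s v r) Z)
    (hr : a + R ≤ r) (t : ℝ) :
    ‖br (tau (ham s) t X) B‖ ≤ 2 * (2 * (a + R) + 1) ^ 2 * ‖X‖ * ‖B‖ *
      ((2 * (4 * R + 1) ^ 2 * gJ R J * |t|) ^ ((r - a) / (2 * R + 1) + 1) /
        ((r - a) / (2 * R + 1) + 1).factorial) := by
  set n := (r - a) / (2 * R + 1) with hn
  have hg := gJ_nonneg R (J_nonneg s)
  have h1 := Crest.Agent.R150.LR375.lr_gen (h := hv s) (fun j => (hv_herm s j).isSelfAdjoint)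
    (norm_hv_le s) (nb := fun j => ball s j (2 * R)) (card_ball_two s)
    (fun j k hk => hv_comm s hk) (d := hop s Z r) (fun j k hk => hop_lip s Z r hk) (B := B)
    (fun j hj => hop_comm s hB hj) (X := X) (S := ball s v (a + R))
    (fun k hk => hv_comm_ball s hX hk)
    (hX.commute hB (hd.mono_left (ball_mono s v (by omega)))).eq n (fun k hk => by
      have h2 := le_hop (cap := r) (hd.mono_left (ball_sub_ball (b := r - (a + R)) hk
        (by omega))) (by omega)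
      rwa [show r - (a + R) + R = r - a by omega] at h2) t
  rw [sum_hv] at h1
  refine h1.trans ?_
  have h3 : ((ball s v (a + R)).card : ℝ) ≤ (2 * (a + R) + 1) ^ 2 := by
    exact_mod_cast card_ball_le s v (a + R)
  have h4 : (1 : ℝ) ≤ (4 * R + 1) ^ 2 := one_le_pow₀ (by have := Nat.cast_nonneg (α := ℝ) R; linarith)
  push_cast
  rw [mul_pow _ |t|, pow_succ (2 * (4 * R + 1 : ℝ) ^ 2 * gJ R J)]
  calc 4 * ((ball s v (a + R)).card : ℝ) * gJ R J * ‖X‖ * ‖B‖ *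
        ((2 * (4 * R + 1 : ℝ) ^ 2 * gJ R J) ^ n * |t| ^ (n + 1) / (n + 1).factorial)
      = 2 * ((ball s v (a + R)).card : ℝ) * ‖X‖ * ‖B‖ *
        ((2 * (4 * R + 1 : ℝ) ^ 2 * gJ R J) ^ n * (2 * 1 * gJ R J) * |t| ^ (n + 1) /
          (n + 1).factorial) := by ring
    _ ≤ _ := by gcongr

/-- **Lieb-Robinson bound**, exponential form, observables in balls of radius `≤ a₀` -/
theorem lrb_gen (R : ℕ) {J : ℝ} (hJ : 0 < J) (a₀ : ℕ) : ∃ c C : ℝ, 0 < c ∧ c ≤ 1 ∧ 2 ≤ C ∧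
    ∀ {q : ℕ} {Δ : ℝ} {Λ : Type} [Fintype Λ] [DecidableEq Λ] (s : Sys q R J Δ Λ) (v : Λ)
      (a r : ℕ) (X B : Q.Op fun _ : Λ => Fin q) (Z : Finset Λ) (t : ℝ),
      Supp (ball s v a) X → a ≤ a₀ → Supp Z B → Disjoint (ball s v r) Z → |t| ≤ c * r →
      ‖br (tau (ham s) t X) B‖ ≤ C * ‖X‖ * ‖B‖ * Real.exp (-(c * r)) := by
  have hg := gJ_pos R hJ
  set M : ℝ := 2 * (4 * R + 1) ^ 2 * gJ R J with hM
  have hM0 : 0 < M := by positivity
  set κ : ℝ := 1 / (2 * (2 * R + 1)) with hκ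
  have hR0 : (0 : ℝ) ≤ R := Nat.cast_nonneg R
  have hκ0 : 0 < κ := by positivity
  have hκ1 : κ ≤ 1 := by rw [hκ, div_le_one (by positivity)]; linarith
  have he : 0 < Real.exp 2 * M := by positivity
  set c : ℝ := κ / (1 + Real.exp 2 * M) with hc
  have hc0 : 0 < c := by positivity
  have hcκ : c ≤ κ := div_le_self hκ0.le (by linarith)
  have hcM : Real.exp 2 * M * c ≤ κ := by
    rw [hc, mul_div_assoc', div_le_iff₀ (by positivity)]
    nlinarith
  have hE : (1 : ℝ) ≤ Real.exp (2 * a₀ + R) := Real.one_le_exp (by positivity)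
  refine ⟨c, 2 * (2 * (a₀ + R) + 1) ^ 2 + 2 * Real.exp (2 * a₀ + R), hc0, hcκ.trans hκ1,
    by nlinarith [sq_nonneg (2 * ((a₀ : ℝ) + R) + 1)], ?_⟩
  intro q Δ Λ _ _ s v a r X B Z t hX ha hB hd ht
  by_cases hr : 2 * a₀ + R ≤ r
  · refine (lrb_fact s hX hB hd (by omega) t).trans ?_
    set n := (r - a) / (2 * R + 1) with hn
    have h1 : κ * r ≤ ((n + 1 : ℕ) : ℝ) := by
      have h2 : r - a < (n + 1) * (2 * R + 1) := by
        rw [hn, mul_comm]; exact Nat.lt_mul_div_succ _ (by omega)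
      have h3 : r ≤ 2 * ((n + 1) * (2 * R + 1)) := by omega
      have h4 : (r : ℝ) ≤ 2 * (((n + 1 : ℕ) : ℝ) * (2 * R + 1)) := by exact_mod_cast h3
      rw [hκ, div_mul_eq_mul_div, div_le_iff₀ (by positivity)]
      linarith
    have hr0 : (0 : ℝ) ≤ r := Nat.cast_nonneg r
    have h5 := pow_div_factorial_le (x := M * |t|) (n := n + 1) (by positivity) (by
      calc Real.exp 2 * (M * |t|) ≤ Real.exp 2 * (M * (c * r)) := by gcongr
        _ = Real.exp 2 * M * c * r := by ring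
        _ ≤ κ * r := by gcongr
        _ ≤ _ := h1)
    have h6 : Real.exp (-((n + 1 : ℕ) : ℝ)) ≤ Real.exp (-(c * r)) := by
      have : c * r ≤ κ * r := by gcongr
      exact Real.exp_le_exp.2 (by linarith)
    have h7 : (a : ℝ) ≤ a₀ := by exact_mod_cast ha
    have h8 : 2 * (2 * ((a : ℝ) + R) + 1) ^ 2 ≤
        2 * (2 * (a₀ + R) + 1) ^ 2 + 2 * Real.exp (2 * a₀ + R) := by
      have : 2 * (2 * ((a : ℝ) + R) + 1) ^ 2 ≤ 2 * (2 * (a₀ + R) + 1) ^ 2 := by gcongr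
      linarith
    have h9 := h5.trans h6
    gcongr
  · have h1 := Crest.Agent.R150.LR375.norm_br_le (tau (ham s) t X) B
    rw [Crest.Agent.R150.LR375.norm_tau (ham_herm s).isSelfAdjoint] at h1
    refine h1.trans ?_
    have h2 : (r : ℝ) ≤ 2 * a₀ + R := by exact_mod_cast (not_le.1 hr).le
    have hr0 : (0 : ℝ) ≤ r := Nat.cast_nonneg r
    have h3 : c * r ≤ 2 * a₀ + R := (mul_le_of_le_one_left hr0 (hcκ.trans hκ1)).trans h2
    have h4 : 1 ≤ Real.exp (2 * a₀ + R) * Real.exp (-(c * r)) := by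
      rw [← Real.exp_add]; exact Real.one_le_exp (by linarith)
    calc 2 * ‖X‖ * ‖B‖ = 2 * ‖X‖ * ‖B‖ * 1 := (mul_one _).symm
      _ ≤ 2 * ‖X‖ * ‖B‖ * (Real.exp (2 * a₀ + R) * Real.exp (-(c * r))) := by gcongr
      _ = (0 + 2 * Real.exp (2 * a₀ + R)) * ‖X‖ * ‖B‖ * Real.exp (-(c * r)) := by ring
      _ ≤ _ := by gcongr; positivity

/-- **Lieb-Robinson bound**, exponential form, observables in balls of radius `≤ 3 R` -/
theorem lrb (R : ℕ) {J : ℝ} (hJ : 0 < J) : ∃ c C : ℝ, 0 < c ∧ 0 < C ∧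
    ∀ {q : ℕ} {Δ : ℝ} {Λ : Type} [Fintype Λ] [DecidableEq Λ] (s : Sys q R J Δ Λ) (v : Λ)
      (a r : ℕ) (X B : Q.Op fun _ : Λ => Fin q) (Z : Finset Λ) (t : ℝ),
      Supp (ball s v a) X → a ≤ 3 * R → Supp Z B → Disjoint (ball s v r) Z → |t| ≤ c * r →
      ‖br (tau (ham s) t X) B‖ ≤ C * ‖X‖ * ‖B‖ * Real.exp (-(c * r)) := by
  obtain ⟨c, C, hc, -, hC, h⟩ := lrb_gen R hJ (3 * R)
  exact ⟨c, C, hc, by linarith, h⟩

end Crest.Agent.N336.A
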